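import Mathlib
import Crest.Agent.R006.FuncL_170

-- ▼ part R6K/P4L_Base_630
section

/-!
# Row 6, P4 local input, part 1: the recurrence of `psi` modulo `p`

`S = ∑_{j<p} u_j w_j^2 ∈ F_p[X]`, `u_j = ∏_{i<2j} (X+1+i)`, `w_j = ∏_{j<i<p} (2X+1+2i)`:
`(2X+1)^3 S + (X+1)^3 S(X+1) = 3 (3X+2) (X^p - X)^2`.
-/

set_option autoImplicit false

open Polynomial Finset

namespace Crest.Agent.R6K.P4L

section modp

variable (p : ℕ) [Fact p.Prime]

lemma prod_range_cast {M : Type*} [CommMonoid M] (g : ZMod p → M) :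
    ∏ i ∈ range p, g (i : ZMod p) = ∏ a : ZMod p, g a := by
  refine Finset.prod_bij (fun i _ => (i : ZMod p)) (fun _ _ => mem_univ _) ?_ ?_ (fun _ _ => rfl)
  · intro a ha b hb h
    rw [mem_range] at ha hb
    have := (ZMod.natCast_eq_natCast_iff' a b p).mp h
    rwa [Nat.mod_eq_of_lt ha, Nat.mod_eq_of_lt hb] at this
  · intro b _
    exact ⟨b.val, mem_range.mpr (ZMod.val_lt b), ZMod.natCast_zmod_val b⟩

lemma prod_X_sub_all : ∏ a : ZMod p, (X - C a) = (X ^ p - X : (ZMod p)[X]) := by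
  have hp1 : 1 < p := (Fact.out : p.Prime).one_lt
  have hroots := FiniteField.roots_X_pow_card_sub_X (ZMod p)
  rw [ZMod.card] at hroots
  have hdeg := FiniteField.X_pow_card_sub_X_natDegree_eq (ZMod p) hp1
  have hmonic : (X ^ p - X : (ZMod p)[X]).Monic := by
    apply monic_X_pow_sub
    rw [degree_X]
    exact_mod_cast hp1
  have h := prod_multiset_X_sub_C_of_monic_of_roots_card_eq hmonic (by
    rw [hroots, hdeg]; simp [ZMod.card])
  rw [hroots] at h
  rw [← h]
  rfl

lemma prod_X_add (c : ZMod p) :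
    ∏ i ∈ range p, (X + C (c + (i : ZMod p))) = (X ^ p - X : (ZMod p)[X]) := by
  rw [prod_range_cast p (fun a => X + C (c + a)), ← prod_X_sub_all p]
  refine Fintype.prod_equiv ((Equiv.addLeft c).trans (Equiv.neg _)) _ _ fun a => ?_
  simp only [Equiv.trans_apply, Equiv.coe_addLeft, Equiv.neg_apply, map_neg, sub_neg_eq_add]

variable {p}

/-- `u_j = ∏_{i<2j} (X+1+i)` -/
noncomputable def u (K : Type*) [CommRing K] (j : ℕ) : K[X] := ∏ i ∈ range (2 * j), (X + 1 + (i : K[X]))

/-- `v_j = ∏_{j<i≤p} (2X+1+2i)` -/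
noncomputable def v (K : Type*) [CommRing K] (p j : ℕ) : K[X] :=
  ∏ i ∈ Ico (j + 1) (p + 1), (2 * X + 1 + 2 * (i : K[X]))

/-- `w_j = ∏_{j<i<p} (2X+1+2i)` -/
noncomputable def w (K : Type*) [CommRing K] (p j : ℕ) : K[X] :=
  ∏ i ∈ Ico (j + 1) p, (2 * X + 1 + 2 * (i : K[X]))

/-- The numerator. -/
noncomputable def S (K : Type*) [CommRing K] (p : ℕ) : K[X] := ∑ j ∈ range p, u K j * w K p j ^ 2

section generic

variable {K : Type*} [CommRing K]

lemma u_succ (j : ℕ) : u K (j + 1) = u K j * (X + 1 + 2 * (j : K[X])) * (X + 2 + 2 * (j : K[X])) := by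
  unfold u
  have e : 2 * (j + 1) = 2 * j + 1 + 1 := by ring
  rw [e, prod_range_succ, prod_range_succ]
  push_cast
  ring

lemma u_comp (j : ℕ) : (X + 1) * (u K j).comp (X + 1) = u K j * (X + 1 + 2 * (j : K[X])) := by
  unfold u
  rw [Polynomial.prod_comp]
  have h1 : ∏ i ∈ range (2 * j + 1), (X + 1 + (i : K[X]))
      = (∏ i ∈ range (2 * j), (X + 1 + (i : K[X]))) * (X + 1 + 2 * (j : K[X])) := by
    rw [prod_range_succ]; push_cast; ring
  have h2 : ∏ i ∈ range (2 * j + 1), (X + 1 + (i : K[X]))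
      = (∏ i ∈ range (2 * j), (X + 1 + ((i + 1 : ℕ) : K[X]))) * (X + 1) := by
    rw [prod_range_succ']; push_cast; ring
  rw [← h1, h2, mul_comm]
  congr 1
  refine prod_congr rfl fun i _ => ?_
  simp only [add_comp, X_comp, one_comp, natCast_comp]
  push_cast
  ring

lemma v_step {p j : ℕ} (h : j < p) : v K p j = (2 * X + 3 + 2 * (j : K[X])) * v K p (j + 1) := by
  unfold v
  rw [prod_eq_prod_Ico_succ_bot (by omega : j + 1 < p + 1)]
  push_cast
  ring

lemma v_eq_w {p j : ℕ} (h : j < p) : v K p j = w K p j * (2 * X + 1 + 2 * (p : K[X])) := by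
  unfold v w
  rw [prod_Ico_succ_top (by omega : j + 1 ≤ p)]

lemma w_comp {p j : ℕ} (h : j < p) : (2 * X + 3 + 2 * (j : K[X])) * (w K p j).comp (X + 1) = v K p j := by
  rw [v_step h]
  congr 1
  unfold v w
  rw [Polynomial.prod_comp]
  have e : ∏ i ∈ Ico (j + 1 + 1) (p + 1), (2 * X + 1 + 2 * (i : K[X]))
      = ∏ i ∈ Ico (j + 1) p, (2 * X + 1 + 2 * ((i + 1 : ℕ) : K[X])) := by
    rw [← prod_Ico_add' (fun i : ℕ => 2 * X + 1 + 2 * (i : K[X])) (j + 1) p 1]
  rw [e]
  refine prod_congr rfl fun i _ => ?_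
  simp only [add_comp, mul_comp, X_comp, one_comp, natCast_comp, ofNat_comp]
  push_cast
  ring

lemma key_cubic (j : K[X]) :
    (2 * X + 3 + 2 * j) ^ 2 * (2 * X + 1) + (X + 1) ^ 2 * (X + 1 + 2 * j)
      = (2 * X + 3 + 2 * j) ^ 2 * (3 * X + 2 * j + 2)
        - (3 * X + 2 * j + 4) * (X + 1 + 2 * j) * (X + 2 + 2 * j) := by
  ring

end generic

lemma charp_poly : ((p : ℕ) : (ZMod p)[X]) = 0 := by
  rw [← C_eq_natCast]; simp

lemma lin_ne_zero (hp : p ≠ 2) (c : (ZMod p)[X]) (hc : c.natDegree = 0) : 2 * X + c ≠ 0 := by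
  intro h
  have h1 := congrArg (fun f : (ZMod p)[X] => f.coeff 1) h
  have h2 : c.coeff 1 = 0 := coeff_eq_zero_of_natDegree_lt (by omega)
  simp only [coeff_add, coeff_zero, h2, add_zero] at h1
  have h3 : ((2 : (ZMod p)[X]) * X).coeff 1 = 2 := by
    rw [show (2 : (ZMod p)[X]) = C 2 from (map_ofNat C 2).symm, coeff_C_mul, coeff_X_one, mul_one]
  rw [h3] at h1
  have h4 : ((2 : ℕ) : ZMod p) = 0 := by exact_mod_cast h1
  rw [ZMod.natCast_eq_zero_iff] at h4
  have h5 := (Nat.prime_dvd_prime_iff_eq (Fact.out : p.Prime) Nat.prime_two).mp h4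
  exact hp h5

lemma tele (hp : p ≠ 2) {j : ℕ} (h : j < p) :
    (2 * X + 1) ^ 3 * (u (ZMod p) j * w (ZMod p) p j ^ 2)
      + (X + 1) ^ 3 * (u (ZMod p) j * w (ZMod p) p j ^ 2).comp (X + 1)
      = (3 * X + 2 * (j : (ZMod p)[X]) + 2) * (u (ZMod p) j * v (ZMod p) p j ^ 2)
        - (3 * X + 2 * ((j + 1 : ℕ) : (ZMod p)[X]) + 2)
          * (u (ZMod p) (j + 1) * v (ZMod p) p (j + 1) ^ 2) := by
  have ht : (2 * X + 3 + 2 * (j : (ZMod p)[X])) ^ 2 ≠ 0 := by
    apply pow_ne_zero
    have := lin_ne_zero hp (3 + 2 * (j : (ZMod p)[X])) (by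
      have : (3 + 2 * (j : (ZMod p)[X])) = ((3 + 2 * j : ℕ) : (ZMod p)[X]) := by push_cast; ring
      rw [this]; exact natDegree_natCast _)
    intro h0
    apply this
    rw [← h0]; ring
  apply mul_left_cancel₀ ht
  have hu := u_comp (K := ZMod p) j
  have hus := u_succ (K := ZMod p) j
  have hv := v_step (K := ZMod p) h
  have hvw := v_eq_w (K := ZMod p) h
  have hwc := w_comp (K := ZMod p) h
  rw [charp_poly, mul_zero, add_zero] at hvw
  have hkey := key_cubic (j : (ZMod p)[X])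
  rw [mul_comp, pow_comp]
  push_cast
  rw [hus]
  generalize (j : (ZMod p)[X]) = J at *
  generalize u (ZMod p) j = U at *
  generalize U.comp (X + 1) = U' at *
  generalize w (ZMod p) p j = Wj at *
  generalize Wj.comp (X + 1) = W' at *
  generalize v (ZMod p) p (j + 1) = V' at *
  generalize v (ZMod p) p j = V at *
  have e1 : (2 * X + 3 + 2 * J) ^ 2 * ((2 * X + 1) ^ 3 * (U * Wj ^ 2) + (X + 1) ^ 3 * (U' * W' ^ 2))
      = (2 * X + 3 + 2 * J) ^ 2 * (2 * X + 1) * U * (Wj * (2 * X + 1)) ^ 2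
        + (X + 1) ^ 2 * ((X + 1) * U') * ((2 * X + 3 + 2 * J) * W') ^ 2 := by ring
  have e2 : (2 * X + 3 + 2 * J) ^ 2 * ((3 * X + 2 * J + 2) * (U * V ^ 2)
      - (3 * X + 2 * (J + 1) + 2) * (U * (X + 1 + 2 * J) * (X + 2 + 2 * J) * V' ^ 2))
      = (2 * X + 3 + 2 * J) ^ 2 * (3 * X + 2 * J + 2) * (U * V ^ 2)
        - (3 * X + 2 * J + 4) * (X + 1 + 2 * J) * (X + 2 + 2 * J) * U
          * ((2 * X + 3 + 2 * J) * V') ^ 2 := by ring
  rw [e1, e2, ← hvw, hu, hwc, ← hv]
  linear_combination (U * V ^ 2) * hkey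

lemma two_pow_p : (2 : (ZMod p)) ^ p = 2 := ZMod.pow_card 2

lemma prod_two (hp : p ≠ 2) :
    ∏ i ∈ range p, (2 * X + 1 + 2 * (i : (ZMod p)[X])) = 2 * (X ^ p - X : (ZMod p)[X]) := by
  have h2 : (2 : ZMod p) ≠ 0 := by
    intro h1
    have h4 : ((2 : ℕ) : ZMod p) = 0 := by exact_mod_cast h1
    rw [ZMod.natCast_eq_zero_iff] at h4
    exact hp ((Nat.prime_dvd_prime_iff_eq (Fact.out : p.Prime) Nat.prime_two).mp h4)
  have h : ∀ i ∈ range p, (2 * X + 1 + 2 * (i : (ZMod p)[X])) = C 2 * (X + C (2⁻¹ + (i : ZMod p))) := by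
    intro i _
    rw [mul_add, ← C_mul, mul_add, mul_inv_cancel₀ h2, C_add, C_1, C_mul, C_eq_natCast]
    simp only [map_ofNat]
    ring
  rw [prod_congr rfl h, prod_mul_distrib, prod_const, card_range, prod_X_add, ← C_pow, two_pow_p]
  simp only [map_ofNat]

lemma v_zero (hp : p ≠ 2) : v (ZMod p) p 0 = 2 * (X ^ p - X) := by
  rw [← prod_two hp]
  unfold v
  have e0 : ∏ i ∈ Ico (0 + 1) (p + 1), (2 * X + 1 + 2 * (i : (ZMod p)[X]))
      = ∏ i ∈ range p, (2 * X + 1 + 2 * ((i + 1 : ℕ) : (ZMod p)[X])) := by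
    rw [← prod_Ico_add' (fun i : ℕ => 2 * X + 1 + 2 * (i : (ZMod p)[X])) 0 p 1, ← range_eq_Ico]
  rw [e0]
  have h1 : ∀ i : ℕ, (2 * X + 1 + 2 * ((i + 1 : ℕ) : (ZMod p)[X]))
      = 2 * X + 1 + 2 * (i : (ZMod p)[X]) + 2 := by intro i; push_cast; ring
  have h2 : ∏ i ∈ range (p + 1), (2 * X + 1 + 2 * (i : (ZMod p)[X]))
      = (∏ i ∈ range p, (2 * X + 1 + 2 * (i : (ZMod p)[X]))) * (2 * X + 1) := by
    rw [prod_range_succ, charp_poly]; ring
  have h3 : ∏ i ∈ range (p + 1), (2 * X + 1 + 2 * (i : (ZMod p)[X]))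
      = (∏ i ∈ range p, (2 * X + 1 + 2 * ((i + 1 : ℕ) : (ZMod p)[X]))) * (2 * X + 1) := by
    rw [prod_range_succ']; push_cast; ring
  rw [h2] at h3
  have h4 : (2 * X + 1 : (ZMod p)[X]) ≠ 0 := lin_ne_zero hp 1 natDegree_one
  exact (mul_right_cancel₀ h4 h3).symm

lemma v_p : v (ZMod p) p p = 1 := by simp [v]

lemma u_p : u (ZMod p) p = (X ^ p - X) ^ 2 := by
  unfold u
  rw [two_mul, prod_range_add]
  have h1 : ∀ i : ℕ, (X + 1 + (i : (ZMod p)[X])) = X + C (1 + (i : ZMod p)) := by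
    intro i; rw [C_add, C_1, C_eq_natCast]; ring
  have h2 : ∀ i : ℕ, (X + 1 + ((p + i : ℕ) : (ZMod p)[X])) = X + C (1 + (i : ZMod p)) := by
    intro i; rw [Nat.cast_add, charp_poly, zero_add, h1]
  simp only [h2]
  simp only [h1]
  rw [prod_X_add]
  ring

/-- The recurrence for the numerator of `psi` modulo `p`. -/
theorem S_rec (hp : p ≠ 2) :
    (2 * X + 1) ^ 3 * S (ZMod p) p + (X + 1) ^ 3 * (S (ZMod p) p).comp (X + 1)
      = 3 * (3 * X + 2) * (X ^ p - X) ^ 2 := by
  unfold S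
  have hcomp : (∑ j ∈ range p, u (ZMod p) j * w (ZMod p) p j ^ 2).comp (X + 1)
      = ∑ j ∈ range p, (u (ZMod p) j * w (ZMod p) p j ^ 2).comp (X + 1) :=
    map_sum (Polynomial.compRingHom (X + 1)) _ _
  rw [hcomp, mul_sum, mul_sum, ← sum_add_distrib]
  rw [sum_congr rfl fun j hj => tele hp (mem_range.mp hj)]
  have h : ∀ n, ∑ j ∈ range n, ((3 * X + 2 * (j : (ZMod p)[X]) + 2) * (u (ZMod p) j * v (ZMod p) p j ^ 2)
        - (3 * X + 2 * ((j + 1 : ℕ) : (ZMod p)[X]) + 2)
          * (u (ZMod p) (j + 1) * v (ZMod p) p (j + 1) ^ 2))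
      = (3 * X + 2 * ((0 : ℕ) : (ZMod p)[X]) + 2) * (u (ZMod p) 0 * v (ZMod p) p 0 ^ 2)
        - (3 * X + 2 * (n : (ZMod p)[X]) + 2) * (u (ZMod p) n * v (ZMod p) p n ^ 2) := by
    intro n
    exact Finset.sum_range_sub' (fun j : ℕ => (3 * X + 2 * (j : (ZMod p)[X]) + 2)
      * (u (ZMod p) j * v (ZMod p) p j ^ 2)) n
  rw [h, charp_poly, v_zero hp, v_p, u_p]
  have hu0 : u (ZMod p) 0 = 1 := by simp [u]
  rw [hu0]
  push_cast
  ring

end modp

end Crest.Agent.R6K.P4L
end

-- ▼ part R6K/P4L_Func_630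
section

/-!
# Row 6, P4 local input, part 2: the residue functional modulo `p`
-/

set_option autoImplicit false

open Polynomial Finset

namespace Crest.Agent.R6K.P4L

/-- The key operator: `P ↦ X^3 P + (2X+1)^3 P(X+1)`. -/
noncomputable def op {A : Type*} [CommRing A] (P : A[X]) : A[X] :=
  X ^ 3 * P + (2 * X + 1) ^ 3 * P.comp (X + 1)

section ext

variable {A : Type*} [CommRing A]

lemma natDegree_two_X_add_one : (2 * X + 1 : A[X]).natDegree ≤ 1 := by
  compute_degree

lemma natDegree_X_add_one : (X + 1 : A[X]).natDegree ≤ 1 := by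
  compute_degree

lemma op_X_pow_degree (n : ℕ) : (op (X ^ n : A[X])).natDegree ≤ n + 3 := by
  unfold op
  rw [pow_comp, X_comp]
  refine (natDegree_add_le _ _).trans (max_le ?_ ?_)
  · rw [← pow_add]
    exact (natDegree_X_pow_le _).trans (by omega)
  · refine natDegree_mul_le.trans ?_
    have h1 : ((2 * X + 1 : A[X]) ^ 3).natDegree ≤ 3 := by
      refine natDegree_pow_le.trans ?_
      have := natDegree_two_X_add_one (A := A)
      omega
    have h2 : ((X + 1 : A[X]) ^ n).natDegree ≤ n := by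
      refine natDegree_pow_le.trans ?_
      have := natDegree_X_add_one (A := A)
      nlinarith
    omega

lemma op_X_pow_coeff (n : ℕ) : (op (X ^ n : A[X])).coeff (n + 3) = 9 := by
  unfold op
  rw [pow_comp, X_comp, coeff_add]
  have h1 : ((X : A[X]) ^ 3 * X ^ n).coeff (n + 3) = 1 := by
    rw [← pow_add, add_comm 3 n, coeff_X_pow_self]
  have h2 : ((2 * X + 1 : A[X]) ^ 3 * (X + 1) ^ n).coeff (n + 3) = 8 := by
    have e : n + 3 = 3 * 1 + n * 1 := by ring
    rw [e, coeff_mul_add_eq_of_natDegree_le (by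
        refine natDegree_pow_le.trans ?_
        have := natDegree_two_X_add_one (A := A)
        omega) (by
        refine natDegree_pow_le.trans ?_
        have := natDegree_X_add_one (A := A)
        nlinarith),
      coeff_pow_of_natDegree_le natDegree_two_X_add_one,
      coeff_pow_of_natDegree_le natDegree_X_add_one]
    have e1 : (2 * X + 1 : A[X]).coeff 1 = 2 := by
      rw [coeff_add, show (2 : A[X]) = C 2 from (map_ofNat C 2).symm, coeff_C_mul, coeff_X_one,
        coeff_one]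
      norm_num
    have e2 : (X + 1 : A[X]).coeff 1 = 1 := by
      rw [coeff_add, coeff_X_one, coeff_one]
      norm_num
    rw [e1, e2]
    norm_num
  rw [h1, h2]
  norm_num

/-- A linear map killing the image of `op` and `1, X, X^2` is zero. -/
lemma ext_of_op {M : Type*} [AddCommGroup M] [Module A M] (h9 : IsUnit (9 : A))
    (D : A[X] →ₗ[A] M) (hD : ∀ P, D (op P) = 0) (h0 : D 1 = 0) (h1 : D X = 0)
    (h2 : D (X ^ 2) = 0) : ∀ f, D f = 0 := by
  have key : ∀ n : ℕ, ∀ f : A[X], f.degree < ((n + 3 : ℕ) : WithBot ℕ) → D f = 0 := by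
    intro n
    induction n with
    | zero =>
      intro f hf
      have hf2 : f.natDegree < 3 := by
        rcases eq_or_ne f 0 with rfl | h
        · simp
        · exact (natDegree_lt_iff_degree_lt h).mpr hf
      rw [as_sum_range_C_mul_X_pow' f hf2]
      simp only [sum_range_succ, sum_range_zero, zero_add, pow_zero, mul_one, pow_one, map_add]
      have e0 : D (C (f.coeff 0)) = 0 := by
        have : C (f.coeff 0) = f.coeff 0 • (1 : A[X]) := by rw [smul_eq_C_mul, mul_one]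
        rw [this, map_smul, h0, smul_zero]
      have e1 : D (C (f.coeff 1) * X) = 0 := by
        rw [← smul_eq_C_mul, map_smul, h1, smul_zero]
      have e2 : D (C (f.coeff 2) * X ^ 2) = 0 := by
        rw [← smul_eq_C_mul, map_smul, h2, smul_zero]
      rw [e0, e1, e2]; simp
    | succ n ih =>
      intro f hf
      obtain ⟨u, hu⟩ := h9
      set a : A := f.coeff (n + 3) * ((u⁻¹ : Aˣ) : A) with ha
      have hg : (f - C a * op (X ^ n)).degree < ((n + 3 : ℕ) : WithBot ℕ) := by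
        rw [degree_lt_iff_coeff_zero]
        intro m hm
        rw [coeff_sub, coeff_C_mul]
        rcases eq_or_lt_of_le hm with h | h
        · rw [← h, op_X_pow_coeff, ha, ← hu, mul_assoc, Units.inv_mul, mul_one, sub_self]
        · have h3 : f.coeff m = 0 := by
            rw [degree_lt_iff_coeff_zero] at hf
            exact hf m (by omega)
          have h4 : (op (X ^ n : A[X])).coeff m = 0 :=
            coeff_eq_zero_of_natDegree_lt (lt_of_le_of_lt (op_X_pow_degree n) h)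
          rw [h3, h4]; simp
      have h5 := ih _ hg
      rw [map_sub, ← smul_eq_C_mul, map_smul, hD, smul_zero, sub_zero] at h5
      exact h5
  intro f
  apply key f.natDegree f
  rcases eq_or_ne f 0 with rfl | h
  · rw [degree_zero]; exact WithBot.bot_lt_coe _
  · rw [degree_eq_natDegree h]
    exact_mod_cast (by omega : f.natDegree < f.natDegree + 3)

end ext

section modp

variable (p : ℕ) [Fact p.Prime]

/-- `(X^p - X)^2` -/
noncomputable def th2 : (ZMod p)[X] := (X ^ p - X) ^ 2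

lemma th_monic : (X ^ p - X : (ZMod p)[X]).Monic := by
  apply monic_X_pow_sub
  rw [degree_X]
  exact_mod_cast (Fact.out : p.Prime).one_lt

lemma th2_monic : (th2 p).Monic := (th_monic p).pow 2

lemma th_natDegree : (X ^ p - X : (ZMod p)[X]).natDegree = p :=
  FiniteField.X_pow_card_sub_X_natDegree_eq (ZMod p) (Fact.out : p.Prime).one_lt

lemma th2_natDegree : (th2 p).natDegree = 2 * p := by
  unfold th2
  rw [(th_monic p).natDegree_pow, th_natDegree]

lemma th2_comp : (th2 p).comp (X + 1) = th2 p := by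
  unfold th2
  rw [pow_comp, sub_comp, pow_comp, X_comp, add_pow_char, one_pow]
  ring

/-- residue functional -/
noncomputable def Lam : (ZMod p)[X] →ₗ[ZMod p] ZMod p :=
  (lcoeff (ZMod p) (2 * p - 1)) ∘ₗ (modByMonicHom (th2 p)) ∘ₗ (LinearMap.mulRight (ZMod p) (S (ZMod p) p))

lemma Lam_apply (f : (ZMod p)[X]) : Lam p f = ((f * S (ZMod p) p) %ₘ th2 p).coeff (2 * p - 1) := rfl

variable {p}

lemma natDegree_mod_lt (f : (ZMod p)[X]) : (f %ₘ th2 p).natDegree < 2 * p := by
  have h := natDegree_modByMonic_lt f (th2_monic p) (by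
    intro h
    have h1 := congrArg natDegree h
    rw [th2_natDegree, natDegree_one] at h1
    have := (Fact.out : p.Prime).pos
    omega)
  rwa [th2_natDegree] at h

lemma mod_comp (f : (ZMod p)[X]) : (f.comp (X + 1)) %ₘ th2 p = (f %ₘ th2 p).comp (X + 1) := by
  have h := modByMonic_add_div f (th2 p)
  have h2 := (div_modByMonic_unique (f := f.comp (X + 1)) (g := th2 p) ((f /ₘ th2 p).comp (X + 1))
    ((f %ₘ th2 p).comp (X + 1)) (th2_monic p) ⟨?_, ?_⟩).2
  · exact h2
  · conv_rhs => rw [← h]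
    rw [add_comp, mul_comp, th2_comp]
  · rw [degree_eq_natDegree (th2_monic p).ne_zero, th2_natDegree]
    refine lt_of_le_of_lt degree_le_natDegree ?_
    have h1 : ((f %ₘ th2 p).comp (X + 1)).natDegree ≤ (f %ₘ th2 p).natDegree := by
      refine natDegree_comp_le.trans ?_
      have := natDegree_X_add_one (A := ZMod p)
      nlinarith
    exact_mod_cast lt_of_le_of_lt h1 (natDegree_mod_lt f)

lemma coeff_comp_top (r : (ZMod p)[X]) (n : ℕ) (hr : r.natDegree ≤ n) :
    (r.comp (X + 1)).coeff n = r.coeff n := by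
  have e : r.comp (X + 1) = taylor 1 r := by rw [taylor_apply, C_1]
  rw [e]
  rcases eq_or_lt_of_le hr with h | h
  · rw [← h, coeff_taylor_natDegree]
    rfl
  · rw [coeff_eq_zero_of_natDegree_lt h, coeff_eq_zero_of_natDegree_lt (by rwa [natDegree_taylor])]

lemma coeff_comp_second (r : (ZMod p)[X]) (n : ℕ) (hr : r.natDegree ≤ n + 1) :
    (r.comp (X + 1)).coeff n = r.coeff n + (n + 1) * r.coeff (n + 1) := by
  have e : r.comp (X + 1) = taylor 1 r := by rw [taylor_apply, C_1]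
  rw [e, taylor_coeff]
  have h1 : (hasseDeriv n r).natDegree < 2 := by
    have := natDegree_hasseDeriv_le r n
    omega
  rw [as_sum_range_C_mul_X_pow' _ h1]
  simp only [sum_range_succ, sum_range_zero, zero_add, pow_zero, mul_one, pow_one, eval_add,
    eval_mul, eval_C, eval_X, hasseDeriv_coeff, Nat.choose_self, Nat.cast_one, one_mul]
  rw [add_comm 1 n, Nat.choose_succ_self_right]
  push_cast
  ring

/-- The functional kills the image of `op`. -/
theorem Lam_op (hp : p ≠ 2) (P : (ZMod p)[X]) : Lam p (op P) = 0 := by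
  rw [Lam_apply]
  unfold op
  rw [add_mul, add_modByMonic, coeff_add]
  have h1 : ((X ^ 3 * P * S (ZMod p) p) %ₘ th2 p).coeff (2 * p - 1)
      = (((X + 1) ^ 3 * P.comp (X + 1) * (S (ZMod p) p).comp (X + 1)) %ₘ th2 p).coeff (2 * p - 1) := by
    have e : (X + 1) ^ 3 * P.comp (X + 1) * (S (ZMod p) p).comp (X + 1)
        = (X ^ 3 * P * S (ZMod p) p).comp (X + 1) := by
      rw [mul_comp, mul_comp, pow_comp, X_comp]
    rw [e, mod_comp, coeff_comp_top]
    have := natDegree_mod_lt (X ^ 3 * P * S (ZMod p) p)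
    omega
  rw [h1, ← coeff_add, ← add_modByMonic]
  have e2 : (X + 1) ^ 3 * P.comp (X + 1) * (S (ZMod p) p).comp (X + 1)
      + (2 * X + 1) ^ 3 * P.comp (X + 1) * S (ZMod p) p
      = th2 p * (P.comp (X + 1) * (3 * (3 * X + 2))) := by
    have h := S_rec hp
    have e3 : (X + 1) ^ 3 * P.comp (X + 1) * (S (ZMod p) p).comp (X + 1)
      + (2 * X + 1) ^ 3 * P.comp (X + 1) * S (ZMod p) p
      = P.comp (X + 1) * ((2 * X + 1) ^ 3 * S (ZMod p) p + (X + 1) ^ 3 * (S (ZMod p) p).comp (X + 1)) := by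
      ring
    rw [e3, h, th2]
    ring
  rw [e2, (modByMonic_eq_zero_iff_dvd (th2_monic p)).mpr (dvd_mul_right _ _)]
  simp

lemma Lam_th2 (Q : (ZMod p)[X]) : Lam p (th2 p * Q) = 0 := by
  rw [Lam_apply, mul_assoc, (modByMonic_eq_zero_iff_dvd (th2_monic p)).mpr (dvd_mul_right _ _)]
  simp

lemma S_natDegree : (S (ZMod p) p).natDegree ≤ 2 * p - 2 := by
  unfold S
  apply natDegree_sum_le_of_forall_le
  intro j hj
  rw [mem_range] at hj
  refine natDegree_mul_le.trans ?_
  have h1 : (u (ZMod p) j).natDegree ≤ 2 * j := by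
    unfold u
    refine (natDegree_prod_le _ _).trans ?_
    refine (Finset.sum_le_card_nsmul _ _ 1 fun i _ => ?_).trans (by simp)
    have e : (X + 1 + (i : (ZMod p)[X])) = X + C (1 + (i : ZMod p)) := by
      rw [C_add, C_1, C_eq_natCast]; ring
    rw [e]
    exact natDegree_X_add_C _ |>.le
  have h2 : (w (ZMod p) p j).natDegree ≤ p - (j + 1) := by
    unfold w
    refine (natDegree_prod_le _ _).trans ?_
    refine (Finset.sum_le_card_nsmul _ _ 1 fun i _ => ?_).trans (by simp)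
    have e : (2 * X + 1 + 2 * (i : (ZMod p)[X])) = 2 * X + C (1 + 2 * (i : ZMod p)) := by
      rw [C_add, C_1, C_mul, C_eq_natCast]; simp only [map_ofNat]; ring
    rw [e]
    compute_degree
  have h3 : ((w (ZMod p) p j) ^ 2).natDegree ≤ 2 * (p - (j + 1)) := by
    refine natDegree_pow_le.trans ?_
    omega
  omega

lemma nine_ne (hp : 5 ≤ p) : (9 : ZMod p) ≠ 0 := by
  intro h
  have h1 : ((9 : ℕ) : ZMod p) = 0 := by exact_mod_cast h
  rw [ZMod.natCast_eq_zero_iff] at h1
  have h2 : p ∣ 3 ^ 2 := by simpa using h1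
  have h3 := (Fact.out : p.Prime).dvd_of_dvd_pow h2
  have := Nat.le_of_dvd (by norm_num) h3
  omega

lemma S_coeffs (hp : 5 ≤ p) :
    (S (ZMod p) p).coeff (2 * p - 2) = 1 ∧ 9 * (S (ZMod p) p).coeff (2 * p - 3) = -7 := by
  obtain ⟨n, hn⟩ : ∃ n, 2 * p = n + 3 := ⟨2 * p - 3, by omega⟩
  have e1 : 2 * p - 2 = n + 1 := by omega
  have e2 : 2 * p - 3 = n := by omega
  rw [e1, e2]
  have hdeg := S_natDegree (p := p)
  rw [e1] at hdeg
  have hrec := S_rec (p := p) (by omega)
  set s := S (ZMod p) p with hs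
  set r := s.comp (X + 1) with hr
  have hrdeg : r.natDegree ≤ n + 1 := by
    rw [hr]
    refine natDegree_comp_le.trans ?_
    have := natDegree_X_add_one (A := ZMod p)
    nlinarith
  have hr1 : r.coeff (n + 1) = s.coeff (n + 1) := coeff_comp_top s (n + 1) hdeg
  have hr0 : r.coeff n = s.coeff n + (n + 1) * s.coeff (n + 1) := coeff_comp_second s n hdeg
  have hn1 : ((n : ZMod p) + 3) = 0 := by
    have : ((n + 3 : ℕ) : ZMod p) = ((2 * p : ℕ) : ZMod p) := by rw [hn]
    push_cast at this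
    rw [this]; simp
  have hs2 : s.coeff (n + 2) = 0 := coeff_eq_zero_of_natDegree_lt (by omega)
  have hs3 : s.coeff (n + 3) = 0 := coeff_eq_zero_of_natDegree_lt (by omega)
  have hs4 : s.coeff (n + 4) = 0 := coeff_eq_zero_of_natDegree_lt (by omega)
  have hr2 : r.coeff (n + 2) = 0 := coeff_eq_zero_of_natDegree_lt (by omega)
  have hr3 : r.coeff (n + 3) = 0 := coeff_eq_zero_of_natDegree_lt (by omega)
  have hr4 : r.coeff (n + 4) = 0 := coeff_eq_zero_of_natDegree_lt (by omega)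
  have expand : (2 * X + 1) ^ 3 * s + (X + 1) ^ 3 * r
      = 8 * (X ^ 3 * s) + 12 * (X ^ 2 * s) + 6 * (X ^ 1 * s) + s
        + (X ^ 3 * r + 3 * (X ^ 2 * r) + 3 * (X ^ 1 * r) + r) := by ring
  rw [expand] at hrec
  have hX : ∀ (k : ℕ) (c : ℕ) (f : (ZMod p)[X]) (m : ℕ), ((c : (ZMod p)[X]) * (X ^ k * f)).coeff (m + k)
      = c * f.coeff m := by
    intro k c f m
    rw [← C_eq_natCast, coeff_C_mul, coeff_X_pow_mul]
  have rhs : 3 * (3 * X + 2) * (X ^ p - X : (ZMod p)[X]) ^ 2
      = 9 * X ^ (n + 4) + 6 * X ^ (n + 3) + (3 * (3 * X + 2) * (X ^ 2 - 2 * X ^ (p + 1))) := by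
    have e3 : (X : (ZMod p)[X]) ^ (n + 3) = (X ^ p) ^ 2 := by rw [← pow_mul, ← hn]; ring_nf
    have e4 : (X : (ZMod p)[X]) ^ (n + 4) = (X ^ p) ^ 2 * X := by rw [← e3]; ring
    rw [e3, e4, pow_succ X p]
    ring
  have hlow : (3 * (3 * X + 2) * (X ^ 2 - 2 * X ^ (p + 1)) : (ZMod p)[X]).natDegree ≤ p + 2 := by
    refine natDegree_mul_le.trans ?_
    have a1 : (3 * (3 * X + 2) : (ZMod p)[X]).natDegree ≤ 1 := by compute_degree
    have a2 : (X ^ 2 - 2 * X ^ (p + 1) : (ZMod p)[X]).natDegree ≤ p + 1 := by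
      refine (natDegree_sub_le _ _).trans (max_le ?_ ?_)
      · exact (natDegree_X_pow_le _).trans (by omega)
      · rw [show (2 : (ZMod p)[X]) = C 2 from (map_ofNat C 2).symm]
        exact natDegree_C_mul_X_pow_le _ _
    omega
  rw [rhs] at hrec
  have h9 : ∀ (c k m : ℕ), ((c : (ZMod p)[X]) * X ^ k).coeff m = if m = k then (c : ZMod p) else 0 := by
    intro c k m
    rw [← C_eq_natCast, coeff_C_mul_X_pow]
  have c1 := congrArg (fun f : (ZMod p)[X] => f.coeff (n + 4)) hrec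
  have c0 := congrArg (fun f : (ZMod p)[X] => f.coeff (n + 3)) hrec
  simp only [coeff_add] at c1 c0
  have t1 := hX 3 8 s (n + 1)
  have t2 := hX 2 12 s (n + 2)
  have t3 := hX 1 6 s (n + 3)
  have t4 := hX 3 1 r (n + 1)
  have t5 := hX 2 3 r (n + 2)
  have t6 := hX 1 3 r (n + 3)
  have t1' := hX 3 8 s n
  have t2' := hX 2 12 s (n + 1)
  have t3' := hX 1 6 s (n + 2)
  have t4' := hX 3 1 r n
  have t5' := hX 2 3 r (n + 1)
  have t6' := hX 1 3 r (n + 2)
  have l1 : (3 * (3 * X + 2) * (X ^ 2 - 2 * X ^ (p + 1)) : (ZMod p)[X]).coeff (n + 4) = 0 :=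
    coeff_eq_zero_of_natDegree_lt (by omega)
  have l0 : (3 * (3 * X + 2) * (X ^ 2 - 2 * X ^ (p + 1)) : (ZMod p)[X]).coeff (n + 3) = 0 :=
    coeff_eq_zero_of_natDegree_lt (by omega)
  have m1 := h9 9 (n + 4) (n + 4)
  have m2 := h9 6 (n + 3) (n + 4)
  have m3 := h9 9 (n + 4) (n + 3)
  have m4 := h9 6 (n + 3) (n + 3)
  rw [if_pos rfl] at m1 m4
  simp only [Nat.cast_one, one_mul, Nat.cast_ofNat] at t1 t2 t3 t4 t5 t6 t1' t2' t3' t4' t5' t6' m1 m2 m3 m4
  rw [if_neg (by omega)] at m2 m3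
  have a1 : n + 1 + 3 = n + 4 := by ring
  have a2 : n + 2 + 2 = n + 4 := by ring
  have a3 : n + 3 + 1 = n + 4 := by ring
  have a4 : n + 1 + 2 = n + 3 := by ring
  have a5 : n + 2 + 1 = n + 3 := by ring
  rw [a1] at t1 t4
  rw [a2] at t2 t5
  rw [a3] at t3 t6
  rw [a4] at t2' t5'
  rw [a5] at t3' t6'
  rw [t1, t2, t3, t4, t5, t6, hs4, hr4, m1, m2, l1, hs3, hs2, hr3, hr2, hr1] at c1
  rw [t1', t2', t3', t4', t5', t6', hs3, hr3, m3, m4, l0, hs2, hr2, hr1, hr0] at c0
  have h9ne := nine_ne hp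
  have hA : s.coeff (n + 1) = 1 := by
    apply mul_left_cancel₀ h9ne
    linear_combination c1
  refine ⟨hA, ?_⟩
  rw [hA] at c0
  linear_combination c0 - hn1

lemma Lam_one (hp : 5 ≤ p) : Lam p 1 = 0 := by
  rw [Lam_apply, one_mul]
  have h := S_natDegree (p := p)
  rw [(modByMonic_eq_self_iff (th2_monic p)).mpr]
  · exact coeff_eq_zero_of_natDegree_lt (by omega)
  · rw [degree_eq_natDegree (th2_monic p).ne_zero, th2_natDegree]
    refine lt_of_le_of_lt degree_le_natDegree ?_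
    exact_mod_cast (by omega : (S (ZMod p) p).natDegree < 2 * p)

lemma Lam_X (hp : 5 ≤ p) : Lam p X = 1 := by
  rw [Lam_apply]
  have h := S_natDegree (p := p)
  have hX : (X * S (ZMod p) p).natDegree ≤ 2 * p - 1 := by
    refine natDegree_mul_le.trans ?_
    have := natDegree_X_le (R := ZMod p)
    omega
  rw [(modByMonic_eq_self_iff (th2_monic p)).mpr]
  · have e : 2 * p - 1 = (2 * p - 2) + 1 := by omega
    rw [e, coeff_X_mul]
    exact (S_coeffs hp).1
  · rw [degree_eq_natDegree (th2_monic p).ne_zero, th2_natDegree]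
    refine lt_of_le_of_lt degree_le_natDegree ?_
    exact_mod_cast (by omega : (X * S (ZMod p) p).natDegree < 2 * p)

lemma Lam_X_sq (hp : 5 ≤ p) : 9 * Lam p (X ^ 2) = -7 := by
  rw [Lam_apply]
  have h := S_natDegree (p := p)
  have hlt : ((X ^ 2 * S (ZMod p) p) - th2 p).degree < (th2 p).degree := by
    rw [degree_eq_natDegree (th2_monic p).ne_zero, th2_natDegree, degree_lt_iff_coeff_zero]
    intro m hm
    rw [coeff_sub]
    rcases eq_or_lt_of_le hm with h1 | h1
    · rw [← h1]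
      have e : 2 * p = (2 * p - 2) + 2 := by omega
      have h2 : (X ^ 2 * S (ZMod p) p).coeff (2 * p) = 1 := by
        rw [e, coeff_X_pow_mul]; exact (S_coeffs hp).1
      have h3 : (th2 p).coeff (2 * p) = 1 := by
        have := (th2_monic p).coeff_natDegree
        rwa [th2_natDegree] at this
      rw [h2, h3, sub_self]
    · have h2 : (X ^ 2 * S (ZMod p) p).coeff m = 0 := by
        apply coeff_eq_zero_of_natDegree_lt
        refine lt_of_le_of_lt natDegree_mul_le ?_
        have := natDegree_X_pow_le (R := ZMod p) 2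
        omega
      have h3 : (th2 p).coeff m = 0 := by
        apply coeff_eq_zero_of_natDegree_lt
        rwa [th2_natDegree]
      rw [h2, h3, sub_self]
  have hmod : (X ^ 2 * S (ZMod p) p) %ₘ th2 p = (X ^ 2 * S (ZMod p) p) - th2 p := by
    have := (div_modByMonic_unique (f := X ^ 2 * S (ZMod p) p) (g := th2 p) 1
      ((X ^ 2 * S (ZMod p) p) - th2 p) (th2_monic p) ⟨by ring, hlt⟩).2
    exact this
  rw [hmod, coeff_sub]
  have e : 2 * p - 1 = (2 * p - 3) + 2 := by omega
  have h2 : (X ^ 2 * S (ZMod p) p).coeff (2 * p - 1) = (S (ZMod p) p).coeff (2 * p - 3) := by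
    rw [e, coeff_X_pow_mul]
  have h3 : (th2 p).coeff (2 * p - 1) = 0 := by
    have e4 : th2 p = X ^ (2 * p) + (X ^ 2 - 2 * X ^ (p + 1)) := by
      unfold th2
      have e5 : (X : (ZMod p)[X]) ^ (2 * p) = (X ^ p) ^ 2 := by rw [← pow_mul]; ring_nf
      rw [e5, pow_succ X p]
      ring
    rw [e4, coeff_add, coeff_X_pow, if_neg (by omega), zero_add]
    apply coeff_eq_zero_of_natDegree_lt
    have h6 : (X ^ 2 - 2 * X ^ (p + 1) : (ZMod p)[X]).natDegree ≤ p + 1 := by
      refine (natDegree_sub_le _ _).trans (max_le ?_ ?_)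
      · exact (natDegree_X_pow_le _).trans (by omega)
      · rw [show (2 : (ZMod p)[X]) = C 2 from (map_ofNat C 2).symm]
        exact natDegree_C_mul_X_pow_le _ _
    omega
  rw [h2, h3, sub_zero]
  exact (S_coeffs hp).2

end modp

end Crest.Agent.R6K.P4L
end

-- ▼ part R6K/P4L_Main_630
section

/-!
# Row 6, P4 local input, part 3: Lemma L

For every linear `L : A[X] → A` with `L (X^3 P + (2X+1)^3 P(X+1)) = 0`, `L 1 = 0`, `6 L X = -1`,
`54 L X^2 = 7` (i.e. `L f = [s^{-1}] f psi_oo`) and every prime `p ≥ 5`: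
`p^(k-1) ∣ L (theta^k Q)`, `theta = ∏_{i<p} (X - i)`.
-/

set_option autoImplicit false

open Polynomial Finset

namespace Crest.Agent.R6K.P4L

/-- `L f = [s^{-1}] (f psi_oo)`. -/
structure IsPsi {A : Type*} [CommRing A] (L : A[X] →ₗ[A] A) : Prop where
  hop : ∀ P, L (op P) = 0
  hone : L 1 = 0
  hX : 6 * L Polynomial.X = -1
  hX2 : 54 * L (Polynomial.X ^ 2) = 7

/-- `A` has residue field `F_p` at `p`. -/
structure IsRes {A : Type*} [CommRing A] (p : ℕ) (π : A →+* ZMod p) : Prop where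
  ker : ∀ a, π a = 0 → (p : A) ∣ a

/-- `theta = ∏_{i<p} (X - i)` -/
noncomputable def theta (A : Type*) [CommRing A] (p : ℕ) : A[X] := ∏ i ∈ range p, (X - (i : A[X]))

/-- `theta' = ∏_{i<p} (2X + 2i + 1)` -/
noncomputable def theta' (A : Type*) [CommRing A] (p : ℕ) : A[X] :=
  ∏ i ∈ range p, (2 * X + 2 * (i : A[X]) + 1)

/-- the ideal `(p, theta)` -/
noncomputable def J (A : Type*) [CommRing A] (p : ℕ) : Ideal A[X] :=
  Ideal.span {C (p : A)} ⊔ Ideal.span {theta A p}

section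

variable {A : Type*} [CommRing A] {p : ℕ} [Fact p.Prime] {π : A →+* ZMod p}
  {L : A[X] →ₗ[A] A}

lemma IsPsi.unit6 (hL : IsPsi L) : IsUnit (6 : A) :=
  IsUnit.of_mul_eq_one (-L Polynomial.X) (by rw [mul_neg, hL.hX, neg_neg])

lemma IsPsi.unit9 (hL : IsPsi L) : IsUnit (9 : A) := by
  refine IsUnit.of_mul_eq_one (4 * (L Polynomial.X) ^ 2) ?_
  have := hL.hX
  calc (9 : A) * (4 * (L Polynomial.X) ^ 2) = (6 * L Polynomial.X) ^ 2 := by ring
    _ = 1 := by rw [this]; ring

lemma map_op (P : A[X]) : (op P).map π = op (P.map π) := by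
  unfold op
  simp only [Polynomial.map_add, Polynomial.map_mul, Polynomial.map_pow, Polynomial.map_X,
    Polynomial.map_comp, Polynomial.map_one, Polynomial.map_ofNat]

/-- reduction of `L` modulo `p` -/
theorem IsPsi.mod_eq (hL : IsPsi L) (hp : 5 ≤ p) (π : A →+* ZMod p) (f : A[X]) :
    π (6 * L f) = -Lam p (f.map π) := by
  let _ : Module A (ZMod p) := Module.compHom _ π
  have hsmul : ∀ (a : A) (x : ZMod p), a • x = π a * x := fun a x => rfl
  let D : A[X] →ₗ[A] ZMod p :=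
    { toFun := fun f => π (6 * L f) + Lam p (f.map π)
      map_add' := by
        intro f g
        simp only [map_add, mul_add, Polynomial.map_add]
        ring
      map_smul' := by
        intro a f
        have h1 : (a • f).map π = (π a) • (f.map π) := by
          rw [smul_eq_C_mul, Polynomial.map_mul, map_C, smul_eq_C_mul]
        simp only [RingHom.id_apply, hsmul, h1, map_smul, smul_eq_mul, map_mul]
        ring }
  have hD : ∀ f, D f = π (6 * L f) + Lam p (f.map π) := fun f => rfl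
  have h := ext_of_op hL.unit9 D (fun P => by
      rw [hD, hL.hop, map_op, Lam_op (by omega)]; simp)
    (by rw [hD, hL.hone, Polynomial.map_one, Lam_one hp]; simp)
    (by rw [hD, hL.hX, Polynomial.map_X, Lam_X hp]; simp)
    (by
      rw [hD, Polynomial.map_pow, Polynomial.map_X]
      have h9 := nine_ne hp
      apply mul_left_cancel₀ h9
      rw [mul_add, Lam_X_sq hp]
      have e : (9 : ZMod p) * π (6 * L (Polynomial.X ^ 2)) = π (54 * L (Polynomial.X ^ 2)) := by
        have : (54 : A) * L (Polynomial.X ^ 2) = 9 * (6 * L (Polynomial.X ^ 2)) := by ring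
        rw [this, map_mul π 9, map_ofNat]
      rw [e, hL.hX2, map_ofNat]
      simp) f
  rw [hD] at h
  exact eq_neg_of_add_eq_zero_left h

lemma map_theta : (theta A p).map π = (X ^ p - X : (ZMod p)[X]) := by
  unfold theta
  rw [Polynomial.map_prod]
  rw [← prod_X_sub_all p, ← prod_range_cast p (fun a => (X - C a : (ZMod p)[X]))]
  refine prod_congr rfl fun i _ => ?_
  simp

lemma map_theta' (hp : p ≠ 2) : (theta' A p).map π = 2 * (X ^ p - X : (ZMod p)[X]) := by
  unfold theta'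
  rw [Polynomial.map_prod, ← prod_two hp]
  refine prod_congr rfl fun i _ => ?_
  simp
  ring

lemma C_dvd_of_map (hπ : IsRes p π) {f : A[X]} (h : f.map π = 0) : C (p : A) ∣ f := by
  rw [C_dvd_iff_dvd_coeff]
  intro i
  apply hπ.ker
  have := congrArg (fun g : (ZMod p)[X] => g.coeff i) h
  simpa using this

lemma exists_eq_add (hπ : IsRes p π) {f g : A[X]} (h : f.map π = g.map π) :
    ∃ k, f = g + C (p : A) * k := by
  obtain ⟨k, hk⟩ := C_dvd_of_map hπ (f := f - g) (by rw [Polynomial.map_sub, h, sub_self])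
  exact ⟨k, by rw [← hk]; ring⟩

lemma map_comp_X_add_p (Q : A[X]) : (Q.comp (X + (p : A[X]))).map π = Q.map π := by
  rw [Polynomial.map_comp, Polynomial.map_add, Polynomial.map_X, Polynomial.map_natCast,
    charp_poly, add_zero, comp_X]

/-- iterated key identity -/
lemma IsPsi.iter (hL : IsPsi L) (m : ℕ) (P : A[X]) :
    L ((∏ i ∈ range m, (Polynomial.X - (i : A[X]))) ^ 3 * P)
      = (-1) ^ m * L ((∏ i ∈ range m, (2 * Polynomial.X + 2 * (i : A[X]) + 1)) ^ 3
        * P.comp (Polynomial.X + (m : A[X]))) := by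
  induction m generalizing P with
  | zero => simp
  | succ m ih =>
    have h1 : (∏ i ∈ range (m + 1), (Polynomial.X - (i : A[X])))
        = Polynomial.X * ∏ i ∈ range m, (Polynomial.X - ((i + 1 : ℕ) : A[X])) := by
      rw [prod_range_succ']; push_cast; ring
    have h2 := hL.hop ((∏ i ∈ range m, (Polynomial.X - ((i + 1 : ℕ) : A[X]))) ^ 3 * P)
    unfold P4L.op at h2
    rw [map_add] at h2
    have h3 : (∏ i ∈ range (m + 1), (Polynomial.X - (i : A[X]))) ^ 3 * P
        = Polynomial.X ^ 3 * ((∏ i ∈ range m, (Polynomial.X - ((i + 1 : ℕ) : A[X]))) ^ 3 * P) := by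
      rw [h1]; ring
    rw [h3, eq_neg_of_add_eq_zero_left h2]
    have h4 : ((∏ i ∈ range m, (Polynomial.X - ((i + 1 : ℕ) : A[X]))) ^ 3 * P).comp (Polynomial.X + 1)
        = (∏ i ∈ range m, (Polynomial.X - (i : A[X]))) ^ 3 * P.comp (Polynomial.X + 1) := by
      rw [mul_comp, pow_comp, Polynomial.prod_comp]
      congr 2
      refine prod_congr rfl fun i _ => ?_
      simp only [sub_comp, X_comp, natCast_comp]
      push_cast
      ring
    rw [h4]
    have h5 : (2 * Polynomial.X + 1) ^ 3 * ((∏ i ∈ range m, (Polynomial.X - (i : A[X]))) ^ 3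
        * P.comp (Polynomial.X + 1))
        = (∏ i ∈ range m, (Polynomial.X - (i : A[X]))) ^ 3
          * ((2 * Polynomial.X + 1) ^ 3 * P.comp (Polynomial.X + 1)) := by ring
    rw [h5, ih]
    have h6 : ((2 * Polynomial.X + 1) ^ 3 * P.comp (Polynomial.X + 1)).comp (Polynomial.X + (m : A[X]))
        = (2 * Polynomial.X + 2 * (m : A[X]) + 1) ^ 3 * P.comp (Polynomial.X + ((m + 1 : ℕ) : A[X])) := by
      rw [mul_comp, comp_assoc]
      congr 1
      · simp only [pow_comp, add_comp, mul_comp, X_comp, one_comp, ofNat_comp]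
        ring
      · congr 1
        simp only [add_comp, X_comp, one_comp]
        push_cast
        ring
    rw [h6, prod_range_succ]
    have h7 : (∏ i ∈ range m, (2 * Polynomial.X + 2 * (i : A[X]) + 1)) ^ 3
        * ((2 * Polynomial.X + 2 * (m : A[X]) + 1) ^ 3 * P.comp (Polynomial.X + ((m + 1 : ℕ) : A[X])))
        = ((∏ i ∈ range m, (2 * Polynomial.X + 2 * (i : A[X]) + 1))
          * (2 * Polynomial.X + 2 * (m : A[X]) + 1)) ^ 3 * P.comp (Polynomial.X + ((m + 1 : ℕ) : A[X])) := by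
      ring
    rw [h7]
    ring

lemma IsPsi.base2 (hL : IsPsi L) (hp : 5 ≤ p) (hπ : IsRes p π) (Q : A[X]) :
    (p : A) ∣ L (theta A p ^ 2 * Q) := by
  have h := hL.mod_eq hp π (theta A p ^ 2 * Q)
  rw [Polynomial.map_mul, Polynomial.map_pow, map_theta] at h
  have h2 := Lam_th2 (p := p) (Q.map π)
  unfold th2 at h2
  rw [h2, neg_zero] at h
  have h3 := hπ.ker _ h
  exact (hL.unit6.dvd_mul_left).mp h3

omit [Fact p.Prime] in
lemma theta_mem_J : theta A p ∈ J A p :=
  Ideal.mem_sup_right (Ideal.mem_span_singleton_self _)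

omit [Fact p.Prime] in
lemma Cp_mem_J : C (p : A) ∈ J A p :=
  Ideal.mem_sup_left (Ideal.mem_span_singleton_self _)

omit [Fact p.Prime] in
lemma J_pow_succ_le (k : ℕ) :
    J A p ^ (k + 1) ≤ Ideal.span {theta A p ^ (k + 1)} ⊔ Ideal.span {C (p : A)} * J A p ^ k := by
  induction k with
  | zero =>
    rw [zero_add, pow_one, pow_one, pow_zero, Ideal.one_eq_top, Ideal.mul_top]
    unfold J
    rw [sup_comm]
  | succ k ih =>
    rw [pow_succ' (J A p) (k + 1)]
    conv_lhs => rw [J]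
    rw [Ideal.sup_mul]
    apply sup_le
    · exact le_sup_right
    · refine (Ideal.mul_mono_right ih).trans ?_
      rw [Ideal.mul_sup]
      apply sup_le
      · rw [Ideal.span_singleton_mul_span_singleton, ← pow_succ']
        exact le_sup_left
      · refine le_trans ?_ le_sup_right
        rw [← mul_assoc, mul_comm (Ideal.span {theta A p}), mul_assoc]
        apply Ideal.mul_mono_right
        rw [pow_succ' (J A p) k]
        apply Ideal.mul_mono_left
        exact le_sup_right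

lemma exists_of_mem_J {k : ℕ} {f : A[X]} (hf : f ∈ J A p ^ (k + 1)) :
    ∃ g h, h ∈ J A p ^ k ∧ f = theta A p ^ (k + 1) * g + C (p : A) * h := by
  have h1 := J_pow_succ_le k hf
  rw [Submodule.mem_sup] at h1
  obtain ⟨a, ha, b, hb, hab⟩ := h1
  rw [Ideal.mem_span_singleton] at ha
  obtain ⟨g, hg⟩ := ha
  rw [Ideal.mem_span_singleton_mul] at hb
  obtain ⟨h, hh, hb⟩ := hb
  exact ⟨g, h, hh, by rw [← hab, hg, hb]⟩

lemma ideal_bound {k : ℕ} (hM : ∀ j ≤ k, ∀ Q, (p : A) ^ (j - 1) ∣ L (theta A p ^ j * Q)) :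
    ∀ f ∈ J A p ^ k, (p : A) ^ (k - 1) ∣ L f := by
  induction k with
  | zero => intro f _; simp
  | succ k ih =>
    intro f hf
    obtain ⟨g, h, hh, rfl⟩ := exists_of_mem_J hf
    rw [map_add]
    apply dvd_add (hM (k + 1) le_rfl g)
    rw [← smul_eq_C_mul, map_smul, smul_eq_mul]
    rcases Nat.eq_zero_or_pos k with hk | hk
    · subst hk; simp
    · have h1 := ih (fun j hj => hM j (by omega)) h hh
      have e : k + 1 - 1 = (k - 1) + 1 := by omega
      rw [e, pow_succ']
      exact mul_dvd_mul_left _ h1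

lemma pow_add_eq (m : ℕ) {z : A[X]} :
    ∃ g ∈ J A p ^ (m - 1), (theta A p + C (p : A) * z) ^ m = theta A p ^ m + C (p : A) * g := by
  induction m with
  | zero => exact ⟨0, Ideal.zero_mem _, by simp⟩
  | succ m ih =>
    obtain ⟨g, hg, h⟩ := ih
    refine ⟨theta A p * g + z * theta A p ^ m + C (p : A) * (z * g), ?_, ?_⟩
    · have e : m + 1 - 1 = m := by omega
      rw [e]
      rcases Nat.eq_zero_or_pos m with hm | hm
      · subst hm; simp
      · obtain ⟨n, rfl⟩ : ∃ n, m = n + 1 := ⟨m - 1, by omega⟩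
        have e2 : n + 1 - 1 = n := by omega
        rw [e2] at hg
        refine Ideal.add_mem _ (Ideal.add_mem _ ?_ ?_) ?_
        · rw [pow_succ']
          exact Ideal.mul_mem_mul theta_mem_J hg
        · exact Ideal.mul_mem_left _ _ (Ideal.pow_mem_pow theta_mem_J _)
        · rw [pow_succ']
          exact Ideal.mul_mem_mul Cp_mem_J (Ideal.mul_mem_left _ _ hg)
    · rw [pow_succ, h]
      ring

/-- **Lemma L.** -/
theorem IsPsi.lemmaL (hL : IsPsi L) (hp : 5 ≤ p) (hπ : IsRes p π) :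
    ∀ (k : ℕ) (Q : A[X]), (p : A) ^ (k - 1) ∣ L (theta A p ^ k * Q) := by
  intro k
  induction k using Nat.strong_induction_on with
  | _ k ih =>
    intro Q
    rcases lt_or_ge k 3 with hk | hk
    · interval_cases k
      · simp
      · simp
      · simpa using hL.base2 hp hπ Q
    · obtain ⟨m, rfl⟩ : ∃ m, k = m + 3 := ⟨k - 3, by omega⟩
      obtain ⟨η, hη⟩ := exists_eq_add hπ (f := theta' A p) (g := 2 * theta A p) (by
        rw [map_theta' (by omega), Polynomial.map_mul, map_theta]; simp)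
      obtain ⟨ζ, hζ⟩ := exists_eq_add hπ (f := (theta A p).comp (X + (p : A[X]))) (g := theta A p)
        (map_comp_X_add_p _)
      obtain ⟨Q₁, hQ₁⟩ := exists_eq_add hπ (f := Q.comp (X + (p : A[X]))) (g := Q)
        (map_comp_X_add_p _)
      have hiter := hL.iter p (theta A p ^ m * Q)
      have e1 : (∏ i ∈ range p, (Polynomial.X - (i : A[X]))) = theta A p := rfl
      have e2 : (∏ i ∈ range p, (2 * Polynomial.X + 2 * (i : A[X]) + 1)) = theta' A p := rfl
      rw [e1, e2, mul_comp, pow_comp, hζ, hQ₁, hη] at hiter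
      have hodd : Odd p := (Fact.out : p.Prime).odd_of_ne_two (by omega)
      rw [hodd.neg_one_pow] at hiter
      obtain ⟨g, hg, hpow⟩ := pow_add_eq (A := A) (p := p) m (z := ζ)
      rw [hpow] at hiter
      set t := theta A p with ht
      set c : A[X] := C (p : A) with hc
      -- the bracket
      let E : A[X] := 12 * t ^ 2 * η + 6 * c * t * η ^ 2 + c ^ 2 * η ^ 3
      let g' : A[X] := E * ((t ^ m + c * g) * (Q + c * Q₁)) + 8 * t ^ 3 * (g * (Q + c * Q₁) + t ^ m * Q₁)
      have hsum : (2 * t + c * η) ^ 3 * ((t ^ m + c * g) * (Q + c * Q₁))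
          = 8 * (t ^ 3 * (t ^ m * Q)) + c * g' := by
        simp only [g', E]
        ring
      rw [hsum, map_add, ← smul_eq_C_mul] at hiter
      have h8 : L (8 * (t ^ 3 * (t ^ m * Q))) = 8 * L (t ^ 3 * (t ^ m * Q)) := by
        have : (8 : A[X]) * (t ^ 3 * (t ^ m * Q)) = (8 : A) • (t ^ 3 * (t ^ m * Q)) := by
          rw [smul_eq_C_mul, map_ofNat]
        rw [this, map_smul, smul_eq_mul]
      rw [h8, map_smul, smul_eq_mul] at hiter
      have h9 : 9 * L (t ^ 3 * (t ^ m * Q)) = -((p : A) * L g') := by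
        linear_combination hiter
      have hg' : g' ∈ J A p ^ (m + 2) := by
        have htJ : t ∈ J A p := theta_mem_J
        have hcJ : c ∈ J A p := Cp_mem_J
        have hE : E ∈ J A p ^ 2 := by
          refine Ideal.add_mem _ (Ideal.add_mem _ ?_ ?_) ?_
          · have : 12 * t ^ 2 * η = (12 * η) * t ^ 2 := by ring
            rw [this]
            exact Ideal.mul_mem_left _ _ (Ideal.pow_mem_pow htJ 2)
          · have : 6 * c * t * η ^ 2 = (6 * η ^ 2) * (c * t) := by ring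
            rw [this, pow_two]
            exact Ideal.mul_mem_left _ _ (Ideal.mul_mem_mul hcJ htJ)
          · rw [mul_comm]
            exact Ideal.mul_mem_left _ _ (Ideal.pow_mem_pow hcJ 2)
        have hPm : t ^ m + c * g ∈ J A p ^ m := by
          rcases Nat.eq_zero_or_pos m with hm | hm
          · subst hm; simp
          · refine Ideal.add_mem _ (Ideal.pow_mem_pow htJ m) ?_
            obtain ⟨n, rfl⟩ : ∃ n, m = n + 1 := ⟨m - 1, by omega⟩
            rw [pow_succ']
            exact Ideal.mul_mem_mul hcJ (by simpa using hg)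
        have h3m : t ^ 3 * g ∈ J A p ^ (m + 2) := by
          have h1 : t ^ 3 * g ∈ J A p ^ 3 * J A p ^ (m - 1) :=
            Ideal.mul_mem_mul (Ideal.pow_mem_pow htJ 3) hg
          rw [← pow_add] at h1
          exact Ideal.pow_le_pow_right (by omega) h1
        have h3t : t ^ 3 * t ^ m ∈ J A p ^ (m + 2) := by
          rw [← pow_add]
          exact Ideal.pow_le_pow_right (by omega) (Ideal.pow_mem_pow htJ (3 + m))
        simp only [g']
        refine Ideal.add_mem _ ?_ ?_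
        · have : E * ((t ^ m + c * g) * (Q + c * Q₁)) = (Q + c * Q₁) * ((t ^ m + c * g) * E) := by ring
          rw [this, pow_add]
          exact Ideal.mul_mem_left _ _ (Ideal.mul_mem_mul hPm hE)
        · have : 8 * t ^ 3 * (g * (Q + c * Q₁) + t ^ m * Q₁)
              = (8 * (Q + c * Q₁)) * (t ^ 3 * g) + (8 * Q₁) * (t ^ 3 * t ^ m) := by ring
          rw [this]
          exact Ideal.add_mem _ (Ideal.mul_mem_left _ _ h3m) (Ideal.mul_mem_left _ _ h3t)
      have hbound := ideal_bound (L := L) (k := m + 2) (fun j hj => ih j (by omega)) g' hg'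
      have e5 : m + 2 - 1 = m + 1 := by omega
      rw [e5] at hbound
      have e6 : m + 3 - 1 = (m + 1) + 1 := by omega
      have e7 : theta A p ^ (m + 3) * Q = t ^ 3 * (t ^ m * Q) := by rw [← ht]; ring
      rw [e6, e7]
      have h10 : (p : A) ^ (m + 1 + 1) ∣ 9 * L (t ^ 3 * (t ^ m * Q)) := by
        rw [h9, pow_succ']
        exact (mul_dvd_mul_left _ hbound).neg_right
      exact (hL.unit9.dvd_mul_left).mp h10

/-- Lemma L on the powers of the ideal `(p, theta)`. -/
theorem IsPsi.dvd_of_mem (hL : IsPsi L) (hp : 5 ≤ p) (hπ : IsRes p π) {k : ℕ} {f : A[X]}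
    (hf : f ∈ J A p ^ k) : (p : A) ^ (k - 1) ∣ L f :=
  ideal_bound (fun j _ => hL.lemmaL hp hπ j) f hf

end

end Crest.Agent.R6K.P4L
end

-- ▼ part R6K/P4L_Class_630
section

/-!
# Row 6, P4 local input, part 4: class version of Lemma L

`Jz A p a = (p, X - a)`.  Universal class idempotents `e c ∈ ℤ[X]` (`c < p`), and for every
commutative ring `A` and every `L` with `IsPsi L`:
`p^(min (k-1) (N-1)) ∣ L (e_c (X-c)^k F)` (`c < p/2`), `p^(min (k+2) (N-1)) ∣ ...` (`c > p/2`).
-/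

set_option autoImplicit false

open Polynomial Finset

namespace Crest.Agent.R6K.P4L

/-- the ideal `(p, X - a)` -/
noncomputable def Jz (A : Type*) [CommRing A] (p : ℕ) (a : ℤ) : Ideal A[X] :=
  Ideal.span {C (p : A)} ⊔ Ideal.span {X - C (a : A)}

section ideals

variable {A : Type*} [CommRing A] {p : ℕ}

lemma X_sub_mem_Jz (a : ℤ) : X - C (a : A) ∈ Jz A p a :=
  Ideal.mem_sup_right (Ideal.mem_span_singleton_self _)

lemma Cp_mem_Jz (a : ℤ) : C (p : A) ∈ Jz A p a :=
  Ideal.mem_sup_left (Ideal.mem_span_singleton_self _)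

lemma Jz_le_of_dvd {a b : ℤ} (h : (p : ℤ) ∣ a - b) : Jz A p a ≤ Jz A p b := by
  conv_lhs => unfold Jz
  refine sup_le le_sup_left ?_
  rw [Ideal.span_le, Set.singleton_subset_iff]
  obtain ⟨k, hk⟩ := h
  have h1 : (a : A) = b + p * k := by
    have : a = b + p * k := by linarith
    rw [this]; push_cast; ring
  have h2 : (X - C (a : A)) = (X - C (b : A)) + C (p : A) * (-C (k : A)) := by
    rw [h1, C_add, C_mul]; ring
  rw [h2]
  exact Ideal.add_mem _ (X_sub_mem_Jz b) (Ideal.mul_mem_right _ _ (Cp_mem_Jz b))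

lemma Jz_eq_of_dvd {a b : ℤ} (h : (p : ℤ) ∣ a - b) : Jz A p a = Jz A p b :=
  le_antisymm (Jz_le_of_dvd h) (Jz_le_of_dvd (by rw [← neg_sub]; exact h.neg_right))

lemma Jz_coprime (hp : p.Prime) {a b : ℤ} (h : ¬ (p : ℤ) ∣ a - b) :
    IsCoprime (Jz A p a) (Jz A p b) := by
  rw [Ideal.isCoprime_iff_exists]
  have h1 : IsCoprime (a - b) (p : ℤ) := by
    rw [isCoprime_comm]
    exact (Nat.prime_iff_prime_int.mp hp).coprime_iff_not_dvd.mpr h
  obtain ⟨u, v, huv⟩ := h1
  refine ⟨-C (u : A) * (X - C (a : A)), Ideal.mul_mem_left _ _ (X_sub_mem_Jz a),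
    C (u : A) * (X - C (b : A)) + C (v : A) * C (p : A),
    Ideal.add_mem _ (Ideal.mul_mem_left _ _ (X_sub_mem_Jz b))
      (Ideal.mul_mem_left _ _ (Cp_mem_Jz b)), ?_⟩
  have h2 : (u : A) * (a - b) + v * p = 1 := by exact_mod_cast congrArg (Int.cast : ℤ → A) huv
  have h3 : C (u : A) * (C (a : A) - C (b : A)) + C (v : A) * C (p : A) = 1 := by
    rw [← C_sub, ← C_mul, ← C_mul, ← C_add, h2, C_1]
  linear_combination h3

lemma comp_mem {a b : ℤ} {q : A[X]} (hq : q - C (a : A) ∈ Jz A p b) {k : ℕ} {f : A[X]}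
    (hf : f ∈ Jz A p a ^ k) : f.comp q ∈ Jz A p b ^ k := by
  have h1 : f.comp q ∈ (Jz A p a ^ k).map (compRingHom q) := by
    have := Ideal.mem_map_of_mem (compRingHom q) hf
    rwa [coe_compRingHom_apply] at this
  rw [Ideal.map_pow] at h1
  refine Ideal.pow_right_mono ?_ k h1
  unfold Jz
  rw [Ideal.map_sup, Ideal.map_span, Ideal.map_span, Set.image_singleton, Set.image_singleton]
  refine sup_le ?_ ?_
  · rw [coe_compRingHom_apply, C_comp]
    exact le_sup_left
  · rw [coe_compRingHom_apply, sub_comp, X_comp, C_comp, Ideal.span_le, Set.singleton_subset_iff]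
    exact hq

lemma comp_add_mem {a b n : ℤ} (h : (p : ℤ) ∣ a - (b + n)) {k : ℕ} {f : A[X]}
    (hf : f ∈ Jz A p a ^ k) : f.comp (X + C (n : A)) ∈ Jz A p b ^ k := by
  refine comp_mem ?_ hf
  obtain ⟨m, hm⟩ := h
  have h1 : (a : A) = b + n + p * m := by
    have : a = b + n + p * m := by linarith
    rw [this]; push_cast; ring
  have : (X + C (n : A) - C (a : A)) = (X - C (b : A)) + C (p : A) * (-C (m : A)) := by
    rw [h1]; simp only [C_add, C_mul]; ring
  rw [this]
  exact Ideal.add_mem _ (X_sub_mem_Jz b) (Ideal.mul_mem_right _ _ (Cp_mem_Jz b))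

lemma prod_Jz_le (m : ℕ) : ∏ i ∈ range m, Jz A p (i : ℤ) ≤
    Ideal.span {C (p : A)} ⊔ Ideal.span {∏ i ∈ range m, (X - (i : A[X]))} := by
  induction m with
  | zero => simp
  | succ m ih =>
    rw [prod_range_succ, prod_range_succ]
    refine (Ideal.mul_mono_left ih).trans ?_
    rw [Ideal.sup_mul]
    refine sup_le ?_ ?_
    · have h1 : Ideal.span {C (p : A)} * Jz A p (m : ℤ) ≤ Ideal.span {C (p : A)} :=
        Ideal.mul_le_left
      exact h1.trans le_sup_left
    · unfold Jz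
      rw [Ideal.mul_sup]
      refine sup_le ?_ ?_
      · have h1 : Ideal.span {∏ i ∈ range m, (X - (i : A[X]))} * Ideal.span {C (p : A)}
            ≤ Ideal.span {C (p : A)} := Ideal.mul_le_right
        exact h1.trans le_sup_left
      rw [Ideal.span_singleton_mul_span_singleton]
      have : (X - C (((m : ℕ) : ℤ) : A)) = (X - (m : A[X])) := by
        rw [Int.cast_natCast, C_eq_natCast]
      rw [this]
      exact le_sup_right

lemma mem_J_of_forall (hp : p.Prime) {N : ℕ} {f : A[X]} (h : ∀ a : ℤ, f ∈ Jz A p a ^ N) :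
    f ∈ J A p ^ N := by
  have h1 : f ∈ ⨅ i ∈ range p, Jz A p (i : ℤ) ^ N := by
    simp only [Ideal.mem_iInf]
    exact fun i _ => h i
  rw [← Ideal.prod_eq_iInf_of_pairwise_isCoprime, prod_pow] at h1
  · refine Ideal.pow_right_mono ?_ N h1
    exact prod_Jz_le p
  · intro i hi j hj hij
    simp only [Finset.coe_range, Set.mem_Iio] at hi hj
    apply IsCoprime.pow
    apply Jz_coprime hp
    intro hd
    apply hij
    have h2 : ((i : ℤ) - j).natAbs < p := by omega
    have h3 := Int.eq_zero_of_dvd_of_natAbs_lt_natAbs hd (by simpa using h2)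
    omega

/-- `G` is concentrated at the class of `c` to order `N` and lies in `J_c^k`. -/
def Conc (p : ℕ) (c : ℤ) (N k : ℕ) (G : A[X]) : Prop :=
  (∀ a : ℤ, ¬ (p : ℤ) ∣ a - c → G ∈ Jz A p a ^ N) ∧ G ∈ Jz A p c ^ k

lemma Conc.mem_all {c : ℤ} {N k : ℕ} {G : A[X]} (h : Conc p c N k G) (a : ℤ) :
    G ∈ Jz A p a ^ min k N := by
  by_cases ha : (p : ℤ) ∣ a - c
  · rw [Jz_eq_of_dvd ha]
    exact Ideal.pow_le_pow_right (min_le_left _ _) h.2
  · exact Ideal.pow_le_pow_right (min_le_right _ _) (h.1 a ha)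

lemma Conc.mul_left {c : ℤ} {N k : ℕ} {G : A[X]} (h : Conc p c N k G) (F : A[X]) :
    Conc p c N k (F * G) :=
  ⟨fun a ha => Ideal.mul_mem_left _ _ (h.1 a ha), Ideal.mul_mem_left _ _ h.2⟩

lemma Conc.shift {c : ℤ} {N k : ℕ} {G : A[X]} (h : Conc p c N k G) (n : ℤ) :
    Conc p (c - n) N k (G.comp (X + C (n : A))) := by
  refine ⟨fun a ha => ?_, ?_⟩
  · refine comp_add_mem (a := a + n) (by simp) (h.1 (a + n) ?_)
    intro hd
    apply ha
    have : a - (c - n) = a + n - c := by ring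
    rwa [this]
  · exact comp_add_mem (a := c) (by simp) h.2

lemma Conc.congr {c c' : ℤ} (hc : (p : ℤ) ∣ c - c') {N k : ℕ} {G : A[X]} (h : Conc p c N k G) :
    Conc p c' N k G := by
  refine ⟨fun a ha => h.1 a ?_, ?_⟩
  · intro hd
    apply ha
    have : a - c' = (a - c) + (c - c') := by ring
    rw [this]
    exact dvd_add hd hc
  · rw [← Jz_eq_of_dvd hc]; exact h.2

/-- inverse of `(2X+1)^3` modulo `J_c^N` -/
lemma exists_inv (hp : p.Prime) {c : ℤ} (hc : ¬ (p : ℤ) ∣ 2 * c + 1) (N : ℕ) :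
    ∃ r : A[X], r * (2 * X + 1) ^ 3 - 1 ∈ Jz A p c ^ N := by
  have h1 : IsCoprime (2 * c + 1) (p : ℤ) := by
    rw [isCoprime_comm]
    exact (Nat.prime_iff_prime_int.mp hp).coprime_iff_not_dvd.mpr hc
  obtain ⟨u, v, huv⟩ := h1
  have h2 : (u : A) * (2 * c + 1) + v * p = 1 := by exact_mod_cast congrArg (Int.cast : ℤ → A) huv
  have h3 : C (u : A) * (2 * C (c : A) + 1) + C (v : A) * C (p : A) = 1 := by
    have e : (2 * C (c : A) + 1 : A[X]) = C (2 * (c : A) + 1) := by
      simp only [C_add, C_mul, C_1, map_ofNat]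
    rw [e, ← C_mul, ← C_mul, ← C_add, h2, C_1]
  set y : A[X] := 1 - C (u : A) * (2 * X + 1) with hy
  have hyJ : y ∈ Jz A p c := by
    have : y = C (v : A) * C (p : A) + (-2 * C (u : A)) * (X - C (c : A)) := by
      rw [hy]; linear_combination -h3
    rw [this]
    exact Ideal.add_mem _ (Ideal.mul_mem_left _ _ (Cp_mem_Jz c))
      (Ideal.mul_mem_left _ _ (X_sub_mem_Jz c))
  -- s (2X+1) = 1 - y^N
  obtain ⟨s, hs⟩ : ∃ s : A[X], s * (2 * X + 1) = 1 - y ^ N := by
    obtain ⟨t, ht⟩ := sub_dvd_pow_sub_pow (1 : A[X]) y N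
    refine ⟨t * C (u : A), ?_⟩
    rw [one_pow] at ht
    rw [ht, hy]
    ring
  refine ⟨s ^ 3, ?_⟩
  have : s ^ 3 * (2 * X + 1) ^ 3 - 1 = (-3 + 3 * y ^ N - (y ^ N) ^ 2) * y ^ N := by
    have : s ^ 3 * (2 * X + 1) ^ 3 = (s * (2 * X + 1)) ^ 3 := by ring
    rw [this, hs]; ring
  rw [this]
  exact Ideal.mul_mem_left _ _ (Ideal.pow_mem_pow hyJ N)

end ideals

section class_L

variable {A : Type*} [CommRing A] {p : ℕ} [Fact p.Prime] {π : A →+* ZMod p}
  {L : A[X] →ₗ[A] A}

/-- polar classes (valid for all classes) -/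
theorem IsPsi.conc_polar (hL : IsPsi L) (hp : 5 ≤ p) (hπ : IsRes p π) {c : ℤ} {N k : ℕ} {G : A[X]}
    (h : Conc p c N k G) : (p : A) ^ (min k N - 1) ∣ L G :=
  hL.dvd_of_mem hp hπ (mem_J_of_forall Fact.out h.mem_all)

lemma IsPsi.step (hL : IsPsi L) (P : A[X]) :
    L (X ^ 3 * P) = -L ((2 * X + 1) ^ 3 * P.comp (X + 1)) := by
  have h := hL.hop P
  unfold P4L.op at h
  rw [map_add] at h
  exact eq_neg_of_add_eq_zero_left h

/-- one step of the class argument -/
lemma IsPsi.conc_step (hL : IsPsi L) (hp : 5 ≤ p) (hπ : IsRes p π) {c : ℤ} {N k : ℕ} {G : A[X]}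
    (h : Conc p c N k G) (hc : ¬ (p : ℤ) ∣ 2 * c + 1) {m : ℕ} (hm : m ≤ N - 1)
    (hnext : ∀ P : A[X], Conc p (c + 1) N k P → (p : A) ^ m ∣ L (X ^ 3 * P)) :
    (p : A) ^ m ∣ L G := by
  have hpp : p.Prime := Fact.out
  obtain ⟨r, hr⟩ := exists_inv (A := A) hpp hc N
  have hP : Conc p (c + 1) N k ((r * G).comp (X - 1)) := by
    have h1 := (h.mul_left r).shift (-1)
    have e1 : (X + C (((-1 : ℤ)) : A)) = (X - 1 : A[X]) := by
      simp [sub_eq_add_neg]
    rw [e1] at h1
    simpa using h1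
  have h2 := hL.step ((r * G).comp (X - 1))
  have h3 : ((r * G).comp (X - 1)).comp (X + 1) = r * G := by
    rw [comp_assoc]
    have : (X - 1 : A[X]).comp (X + 1) = X := by simp
    rw [this, comp_X]
  rw [h3] at h2
  have h4 : (2 * X + 1) ^ 3 * (r * G) = G + (r * (2 * X + 1) ^ 3 - 1) * G := by ring
  rw [h4, map_add] at h2
  have h5 : (p : A) ^ (N - 1) ∣ L ((r * (2 * X + 1) ^ 3 - 1) * G) := by
    apply hL.dvd_of_mem hp hπ
    apply mem_J_of_forall hpp
    intro a
    by_cases ha : (p : ℤ) ∣ a - c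
    · rw [Jz_eq_of_dvd ha]
      exact Ideal.mul_mem_right _ _ hr
    · exact Ideal.mul_mem_left _ _ (h.1 a ha)
  have h6 : L G = -(L (X ^ 3 * (r * G).comp (X - 1))) - L ((r * (2 * X + 1) ^ 3 - 1) * G) := by
    linear_combination h2
  rw [h6]
  exact dvd_sub (hnext _ hP).neg_right ((pow_dvd_pow _ hm).trans h5)

/-- regular classes: `c = p - 1 - d`, `2 c > p` -/
theorem IsPsi.conc_regular (hL : IsPsi L) (hp : 5 ≤ p) (hπ : IsRes p π) {N k : ℕ} :
    ∀ d : ℕ, 2 * d + 2 < p → ∀ G : A[X], Conc p (-(d : ℤ) - 1) N k G →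
      (p : A) ^ (min (k + 3) N - 1) ∣ L G := by
  have hpp : p.Prime := Fact.out
  intro d
  induction d with
  | zero =>
    intro _ G hG
    refine hL.conc_step hp hπ hG ?_ (by omega) ?_
    · intro hd
      have h1 : (2 * (-((0 : ℕ) : ℤ) - 1) + 1 : ℤ) = -1 := by norm_num
      rw [h1] at hd
      have := Int.le_of_dvd (by norm_num) (dvd_neg.mp hd)
      omega
    · intro P hP
      have hP0 : Conc p 0 N k P := by simpa using hP
      have h2 : Conc p 0 N (k + 3) (X ^ 3 * P) := by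
        refine ⟨(hP0.mul_left (X ^ 3)).1, ?_⟩
        rw [add_comm k 3, pow_add]
        have hX : (X : A[X]) ∈ Jz A p 0 := by
          have := X_sub_mem_Jz (A := A) (p := p) 0
          simpa using this
        exact Ideal.mul_mem_mul (Ideal.pow_mem_pow hX 3) hP0.2
      exact hL.conc_polar hp hπ h2
  | succ d ih =>
    intro hd G hG
    refine hL.conc_step hp hπ hG ?_ (by omega) ?_
    · intro hdv
      have h1 : (2 * (-((d + 1 : ℕ) : ℤ) - 1) + 1 : ℤ) = -(2 * d + 3) := by push_cast; ring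
      rw [h1, dvd_neg] at hdv
      obtain ⟨t, ht⟩ := hdv
      have ht1 : 0 < t := by
        by_contra hcon
        have : (p : ℤ) * t ≤ 0 := mul_nonpos_of_nonneg_of_nonpos (by positivity) (by omega)
        omega
      have ht2 : (p : ℤ) ≤ p * t := by
        nlinarith [(by positivity : (0 : ℤ) ≤ p)]
      omega
    · intro P hP
      apply ih (by omega)
      have h2 := hP.mul_left (X ^ 3)
      have e : (-((d + 1 : ℕ) : ℤ) - 1 + 1) = -(d : ℤ) - 1 := by push_cast; ring
      rwa [e] at h2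

end class_L

section idem

/-- universal class idempotents -/
structure IsIdem (p N : ℕ) (e : ℕ → ℤ[X]) : Prop where
  sum_eq : ∑ c ∈ range p, e c = 1
  off : ∀ c < p, ∀ c' < p, c' ≠ c → e c ∈ Jz ℤ p c' ^ N

lemma not_dvd_of_lt {p i j : ℕ} (hi : i < p) (hj : j < p) (hij : i ≠ j) :
    ¬ (p : ℤ) ∣ (i : ℤ) - j := by
  intro hd
  apply hij
  have h2 : ((i : ℤ) - j).natAbs < p := by omega
  have h3 := Int.eq_zero_of_dvd_of_natAbs_lt_natAbs hd (by simpa using h2)
  omega

theorem exists_idem {p : ℕ} (hp : p.Prime) (N : ℕ) : ∃ e, IsIdem p N e := by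
  have h : (⨆ i ∈ range p, ⨅ (j) (_ : j ∈ range p) (_ : j ≠ i), Jz ℤ p (j : ℤ) ^ N) = ⊤ := by
    rw [Ideal.iSup_iInf_eq_top_iff_pairwise ⟨0, by simp [hp.pos]⟩]
    intro i hi j hj hij
    rw [← Ideal.isCoprime_iff_sup_eq]
    simp only [Finset.coe_range, Set.mem_Iio] at hi hj
    exact IsCoprime.pow (Jz_coprime hp (not_dvd_of_lt hi hj hij))
  have h1 : (1 : ℤ[X]) ∈ (⨆ i ∈ range p, ⨅ (j) (_ : j ∈ range p) (_ : j ≠ i),
      Jz ℤ p (j : ℤ) ^ N) := by rw [h]; trivial
  rw [Submodule.mem_iSup_finset_iff_exists_sum] at h1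
  obtain ⟨μ, hμ⟩ := h1
  refine ⟨fun c => (μ c : ℤ[X]), hμ, ?_⟩
  intro c _ c' hc' hne
  have h2 := (μ c).2
  simp only [Submodule.mem_iInf] at h2
  exact h2 c' (mem_range.mpr hc') hne

namespace IsIdem

variable {p N : ℕ} {e : ℕ → ℤ[X]}

lemma off_int (he : IsIdem p N e) (hp : 0 < p) {c : ℕ} (hc : c < p) {a : ℤ}
    (ha : ¬ (p : ℤ) ∣ a - c) : e c ∈ Jz ℤ p a ^ N := by
  have hp' : (p : ℤ) ≠ 0 := by omega
  have h0 := Int.emod_nonneg a hp'
  have h1 := Int.emod_lt_of_pos a (by omega : (0 : ℤ) < p)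
  have h2 : (p : ℤ) ∣ ((a % p).toNat : ℤ) - a := by
    rw [Int.toNat_of_nonneg h0]
    exact ⟨-(a / p), by have := Int.mul_ediv_add_emod a p; linarith⟩
  rw [← Jz_eq_of_dvd h2]
  refine he.off c hc _ (by omega) ?_
  intro h3
  apply ha
  rw [h3] at h2
  rw [← neg_sub]
  exact h2.neg_right

lemma on (he : IsIdem p N e) {c : ℕ} (hc : c < p) : e c - 1 ∈ Jz ℤ p c ^ N := by
  rw [← he.sum_eq, ← Finset.add_sum_erase _ _ (mem_range.mpr hc)]
  have : e c - (e c + ∑ x ∈ (range p).erase c, e x) = -∑ x ∈ (range p).erase c, e x := by ring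
  rw [this]
  refine neg_mem (Ideal.sum_mem _ fun x hx => ?_)
  rw [mem_erase, mem_range] at hx
  exact he.off x hx.2 c hc (Ne.symm hx.1)

end IsIdem

lemma map_mem {A B : Type*} [CommRing A] [CommRing B] (φ : A →+* B) {p : ℕ} {a : ℤ} {k : ℕ}
    {f : A[X]} (hf : f ∈ Jz A p a ^ k) : f.map φ ∈ Jz B p a ^ k := by
  have h1 : f.map φ ∈ (Jz A p a ^ k).map (mapRingHom φ) := by
    have := Ideal.mem_map_of_mem (mapRingHom φ) hf
    rwa [coe_mapRingHom] at this
  rw [Ideal.map_pow] at h1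
  refine Ideal.pow_right_mono ?_ k h1
  unfold Jz
  rw [Ideal.map_sup, Ideal.map_span, Ideal.map_span, Set.image_singleton, Set.image_singleton,
    coe_mapRingHom, map_C, Polynomial.map_sub, Polynomial.map_X, map_C, map_natCast, map_intCast]

/-- the idempotent over `A` -/
noncomputable def eA (A : Type*) [CommRing A] (e : ℕ → ℤ[X]) (c : ℕ) : A[X] :=
  (e c).map (Int.castRingHom A)

section A

variable {A : Type*} [CommRing A] {p N : ℕ} {e : ℕ → ℤ[X]}

lemma IsIdem.sumA (he : IsIdem p N e) : ∑ c ∈ range p, eA A e c = 1 := by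
  unfold eA
  rw [← Polynomial.map_sum, he.sum_eq, Polynomial.map_one]

lemma IsIdem.offA (he : IsIdem p N e) (hp : 0 < p) {c : ℕ} (hc : c < p) {a : ℤ}
    (ha : ¬ (p : ℤ) ∣ a - c) : eA A e c ∈ Jz A p a ^ N :=
  map_mem _ (he.off_int hp hc ha)

lemma IsIdem.onA (he : IsIdem p N e) {c : ℕ} (hc : c < p) : eA A e c - 1 ∈ Jz A p c ^ N := by
  have := map_mem (Int.castRingHom A) (he.on hc)
  rwa [Polynomial.map_sub, Polynomial.map_one] at this

lemma IsIdem.conc (he : IsIdem p N e) (hp : 0 < p) {c : ℕ} (hc : c < p) (k : ℕ) (F : A[X]) :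
    Conc p c N k (eA A e c * ((X - C (c : A)) ^ k * F)) := by
  refine ⟨fun a ha => Ideal.mul_mem_right _ _ (he.offA hp hc ha), ?_⟩
  refine Ideal.mul_mem_left _ _ (Ideal.mul_mem_right _ _ (Ideal.pow_mem_pow ?_ k))
  have := X_sub_mem_Jz (A := A) (p := p) (c : ℤ)
  simpa using this

lemma IsIdem.comp_sub (he : IsIdem p N e) (hp : p.Prime) {c c' : ℕ} (hc : c < p) (hc' : c' < p)
    (h : (p : ℤ) ∣ c - (c' + 1)) : (eA A e c).comp (X + 1) - eA A e c' ∈ J A p ^ N := by
  apply mem_J_of_forall hp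
  intro a
  have e1 : (X + C ((1 : ℤ) : A)) = (X + 1 : A[X]) := by simp
  by_cases ha : (p : ℤ) ∣ a - c'
  · have h1 : (eA A e c - 1).comp (X + C ((1 : ℤ) : A)) ∈ Jz A p a ^ N := by
      refine comp_add_mem (a := (c : ℤ)) ?_ (he.onA hc)
      have : (c : ℤ) - (a + 1) = (c - (c' + 1)) - (a - c') := by ring
      rw [this]
      exact dvd_sub h ha
    have h2 : eA A e c' - 1 ∈ Jz A p a ^ N := by
      rw [Jz_eq_of_dvd ha]; exact he.onA hc'
    rw [e1, sub_comp, one_comp] at h1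
    have : (eA A e c).comp (X + 1) - eA A e c' = ((eA A e c).comp (X + 1) - 1) - (eA A e c' - 1) := by
      ring
    rw [this]
    exact Ideal.sub_mem _ h1 h2
  · have h1 : (eA A e c).comp (X + C ((1 : ℤ) : A)) ∈ Jz A p a ^ N := by
      refine comp_add_mem (a := a + 1) (by simp) (he.offA hp.pos hc ?_)
      intro hd
      apply ha
      have : a - c' = (a + 1 - c) + (c - (c' + 1)) := by ring
      rw [this]
      exact dvd_add hd h
    rw [e1] at h1
    exact Ideal.sub_mem _ h1 (he.offA hp.pos hc' ha)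

end A

end idem

end Crest.Agent.R6K.P4L
end

-- ▼ part R6K/P4L_Gen_630

/-!
# Row 6, P4 local input, part 5: Lemma L and its class version over every commutative ring

Base change from `ℤ[1/6]`: for every commutative ring `A` and every `L` with `IsPsi L`
(no hypothesis on the residue ring):

* `IsPsi.lemmaL_gen : p^(k-1) ∣ L (theta^k Q)`;
* `IsPsi.class_polar : p^(min k N - 1) ∣ L (e_c (X-c)^k F)` for all `c < p`;
* `IsPsi.class_regular : p^(min (k+3) N - 1) ∣ L (e_c (X-c)^k F)` for `p < 2 c`, `c < p`.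
-/

set_option autoImplicit false

open Polynomial Finset

namespace Crest.Agent.R6K.P4L

/-- `ℤ[1/6]` -/
abbrev U6 : Type := Localization.Away (6 : ℤ)

/-- `1/6` -/
noncomputable def w6 : U6 := IsLocalization.Away.invSelf (6 : ℤ)

lemma six_w6 : (6 : U6) * w6 = 1 := by
  have h := IsLocalization.Away.mul_invSelf (S := U6) (6 : ℤ)
  rw [map_ofNat] at h
  exact h

/-- the universal functional -/
noncomputable def L6 : U6[X] →ₗ[U6] U6 :=
  Crest.Agent.R006.FuncLx170.Lam
    (Crest.Agent.R006.FuncLx170.seq (4 * w6 ^ 2) 0 (-w6) (28 * w6 ^ 3))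

lemma isPsi_L6 : IsPsi L6 := by
  have h6 := six_w6
  have hu : (9 : U6) * (4 * w6 ^ 2) = 1 := by
    linear_combination (6 * w6 + 1) * h6
  refine ⟨fun P => Crest.Agent.R006.FuncLx170.seq_key _ _ _ _ hu P, ?_, ?_, ?_⟩
  · unfold L6
    rw [Crest.Agent.R006.FuncLx170.Lam_one, Crest.Agent.R006.FuncLx170.seq]
  · unfold L6
    rw [Crest.Agent.R006.FuncLx170.Lam_X, Crest.Agent.R006.FuncLx170.seq]
    linear_combination -h6
  · unfold L6
    rw [Crest.Agent.R006.FuncLx170.Lam_X_pow, Crest.Agent.R006.FuncLx170.seq]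
    linear_combination 7 * (36 * w6 ^ 2 + 6 * w6 + 1) * h6

section res

variable {p : ℕ} [Fact p.Prime]

lemma six_unit (hp : 5 ≤ p) : IsUnit ((Int.castRingHom (ZMod p)) 6) := by
  rw [isUnit_iff_ne_zero]
  intro h
  have h1 : ((6 : ℕ) : ZMod p) = 0 := by simpa using h
  rw [ZMod.natCast_eq_zero_iff] at h1
  have hpp : p.Prime := Fact.out
  have h2 : p ∣ 2 * 3 := by simpa using h1
  rcases (Nat.Prime.dvd_mul hpp).mp h2 with h | h
  · have := Nat.le_of_dvd (by norm_num) h; omega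
  · have := Nat.le_of_dvd (by norm_num) h; omega

/-- reduction mod `p` of `ℤ[1/6]` -/
noncomputable def pi6 (hp : 5 ≤ p) : U6 →+* ZMod p := IsLocalization.Away.lift (6 : ℤ) (six_unit hp)

lemma isRes_pi6 (hp : 5 ≤ p) : IsRes p (pi6 hp) := by
  refine ⟨fun a ha => ?_⟩
  obtain ⟨n, m, hm⟩ := IsLocalization.Away.surj (6 : ℤ) a
  have h1 := congrArg (pi6 hp) hm
  rw [map_mul, ha, zero_mul, pi6, IsLocalization.Away.lift_eq] at h1
  have h2 : (p : ℤ) ∣ m := by
    rw [← ZMod.intCast_zmod_eq_zero_iff_dvd]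
    exact h1.symm
  obtain ⟨t, rfl⟩ := h2
  refine ⟨(algebraMap ℤ U6 t) * w6 ^ n, ?_⟩
  have h3 : a * 6 ^ n = p * algebraMap ℤ U6 t := by
    rw [map_mul, map_natCast, map_ofNat] at hm
    exact hm
  have h4 : (6 : U6) ^ n * w6 ^ n = 1 := by rw [← mul_pow, six_w6, one_pow]
  calc a = a * (6 ^ n * w6 ^ n) := by rw [h4, mul_one]
    _ = (a * 6 ^ n) * w6 ^ n := by ring
    _ = p * ((algebraMap ℤ U6 t) * w6 ^ n) := by rw [h3]; ring

end res

section gen

variable {A : Type*} [CommRing A] {L : A[X] →ₗ[A] A}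

lemma IsPsi.unit6' (hL : IsPsi L) : IsUnit ((Int.castRingHom A) 6) := by
  have := hL.unit6
  simpa using this

/-- the map `ℤ[1/6] → A` -/
noncomputable def IsPsi.phi (hL : IsPsi L) : U6 →+* A := IsLocalization.Away.lift (6 : ℤ) hL.unit6'

theorem IsPsi.map_eq (hL : IsPsi L) (f : U6[X]) : L (f.map hL.phi) = hL.phi (L6 f) := by
  let _ : Module U6 A := Module.compHom _ hL.phi
  have hsmul : ∀ (a : U6) (x : A), a • x = hL.phi a * x := fun a x => rfl
  let D : U6[X] →ₗ[U6] A :=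
    { toFun := fun f => L (f.map hL.phi) - hL.phi (L6 f)
      map_add' := by
        intro f g
        simp only [map_add, Polynomial.map_add]
        ring
      map_smul' := by
        intro a f
        have h1 : (a • f).map hL.phi = (hL.phi a) • (f.map hL.phi) := by
          rw [smul_eq_C_mul, Polynomial.map_mul, map_C, smul_eq_C_mul]
        simp only [RingHom.id_apply, hsmul, h1, map_smul, smul_eq_mul, map_mul]
        ring }
  have hD : ∀ f, D f = L (f.map hL.phi) - hL.phi (L6 f) := fun f => rfl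
  have hu6 : IsUnit (6 : A) := hL.unit6
  have h := ext_of_op isPsi_L6.unit9 D (fun P => by
      rw [hD, isPsi_L6.hop, map_zero, sub_zero]
      have : (op P).map hL.phi = op (P.map hL.phi) := by
        unfold op
        simp only [Polynomial.map_add, Polynomial.map_mul, Polynomial.map_pow, Polynomial.map_X,
          Polynomial.map_comp, Polynomial.map_one, Polynomial.map_ofNat]
      rw [this, hL.hop])
    (by rw [hD, isPsi_L6.hone, Polynomial.map_one, hL.hone]; simp)
    (by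
      rw [hD, Polynomial.map_X]
      apply hu6.mul_left_cancel
      have h1 := congrArg hL.phi isPsi_L6.hX
      rw [map_mul, map_ofNat, map_neg, map_one] at h1
      rw [mul_sub, hL.hX, h1]; simp)
    (by
      rw [hD, Polynomial.map_pow, Polynomial.map_X]
      have hu54 : IsUnit (54 : A) := by
        refine IsUnit.of_mul_eq_one (-4 * (L Polynomial.X) ^ 3) ?_
        have := hL.hX
        calc (54 : A) * (-4 * (L Polynomial.X) ^ 3) = -(6 * L Polynomial.X) ^ 3 := by ring
          _ = 1 := by rw [this]; ring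
      apply hu54.mul_left_cancel
      have h1 := congrArg hL.phi isPsi_L6.hX2
      rw [map_mul, map_ofNat, map_ofNat] at h1
      rw [mul_sub, hL.hX2, h1]; simp) f
  rw [hD] at h
  exact sub_eq_zero.mp h

lemma IsPsi.phi_natCast_pow (hL : IsPsi L) (p m : ℕ) : hL.phi ((p : U6) ^ m) = (p : A) ^ m := by
  rw [map_pow, map_natCast]

lemma IsPsi.dvd_of_U6 (hL : IsPsi L) {q : U6} {g : U6[X]} (h : ∀ n : ℕ, q ∣ L6 (g * X ^ n))
    (F : A[X]) : hL.phi q ∣ L (g.map hL.phi * F) := by
  induction F using Polynomial.induction_on' with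
  | add F G hF hG => rw [mul_add, map_add]; exact dvd_add hF hG
  | monomial n a =>
    have h1 : g.map hL.phi * monomial n a = a • ((g * X ^ n).map hL.phi) := by
      rw [← C_mul_X_pow_eq_monomial, smul_eq_C_mul, Polynomial.map_mul, Polynomial.map_pow,
        Polynomial.map_X]
      ring
    rw [h1, map_smul, smul_eq_mul, hL.map_eq]
    exact Dvd.dvd.mul_left (map_dvd _ (h n)) _

variable {p : ℕ} [Fact p.Prime]



variable {N : ℕ} {e : ℕ → ℤ[X]}

lemma eA_map {A B : Type*} [CommRing A] [CommRing B] (φ : A →+* B) (e : ℕ → ℤ[X]) (c : ℕ) :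
    (eA A e c).map φ = eA B e c := by
  unfold eA
  rw [Polynomial.map_map]
  congr 1
  exact RingHom.ext_int _ _

/-- all classes -/
theorem IsPsi.class_polar (hL : IsPsi L) (hp : 5 ≤ p) (he : IsIdem p N e) {c : ℕ} (hc : c < p)
    (k : ℕ) (F : A[X]) :
    (p : A) ^ (min k N - 1) ∣ L (eA A e c * ((X - C (c : A)) ^ k * F)) := by
  have h := hL.dvd_of_U6 (q := (p : U6) ^ (min k N - 1))
    (g := eA U6 e c * (X - C (c : U6)) ^ k)
    (fun n => by
      rw [mul_assoc]
      exact isPsi_L6.conc_polar hp (isRes_pi6 hp)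
        (he.conc (Fact.out : p.Prime).pos hc k (X ^ n))) F
  rw [hL.phi_natCast_pow, Polynomial.map_mul, eA_map, Polynomial.map_pow, Polynomial.map_sub,
    Polynomial.map_X, map_C, map_natCast, mul_assoc] at h
  exact h

/-- regular classes `p/2 < c < p` -/
theorem IsPsi.class_regular (hL : IsPsi L) (hp : 5 ≤ p) (he : IsIdem p N e) {c : ℕ} (hc : c < p)
    (hc2 : p < 2 * c) (k : ℕ) (F : A[X]) :
    (p : A) ^ (min (k + 3) N - 1) ∣ L (eA A e c * ((X - C (c : A)) ^ k * F)) := by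
  have h := hL.dvd_of_U6 (q := (p : U6) ^ (min (k + 3) N - 1))
    (g := eA U6 e c * (X - C (c : U6)) ^ k)
    (fun n => by
      rw [mul_assoc]
      refine isPsi_L6.conc_regular hp (isRes_pi6 hp) (p - 1 - c) (by omega) _
        (Conc.congr ?_ (he.conc (Fact.out : p.Prime).pos hc k (X ^ n)))
      have : (c : ℤ) - (-((p - 1 - c : ℕ) : ℤ) - 1) = p := by omega
      rw [this]) F
  rw [hL.phi_natCast_pow, Polynomial.map_mul, eA_map, Polynomial.map_pow, Polynomial.map_sub,
    Polynomial.map_X, map_C, map_natCast, mul_assoc] at h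
  exact h


end gen

end Crest.Agent.R6K.P4L
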